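import Vale.Agent.P197.H328.Faith
import Vale.Agent.P197.TS.Tw
import Vale.Agent.P197.TS.Irr
import Mathlib.GroupTheory.SpecificGroups.Alternating

/-!
# Restriction of Specht modules to the alternating group
-/

namespace Vale.Agent.N197

open Equiv Finset Vale.Agent.P197 Vale.Agent.P197.H328
open scoped TensorProduct

noncomputable section

variable {n : ℕ}

/-- The words occurring in a Specht module use only the row numbers. -/
theorem specht_le_supported (lam : YoungDiagram) :
    spechtSub n lam ≤ Finsupp.supported ℂ ℂ {u : Fin n → ℕ | ∀ x, u x < lam.colLen 0} := by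
  unfold spechtSub
  rw [Submodule.span_le]
  rintro v ⟨t, rfl⟩
  unfold polyt
  refine Submodule.sum_mem _ fun π _ => Submodule.smul_mem _ _ ?_
  refine Finsupp.single_mem_supported ℂ _ ?_
  intro x
  have h1 : ((t (π⁻¹ x)).1.1, (t (π⁻¹ x)).1.2) ∈ lam := (YoungDiagram.mem_cells _).1 (t _).2
  have h2 : ((t (π⁻¹ x)).1.1, 0) ∈ lam := lam.up_left_mem le_rfl (Nat.zero_le _) h1
  exact YoungDiagram.mem_iff_lt_colLen.1 h2

theorem sign_eq_neg_one {g : Perm (Fin n)} (h : Perm.sign g ≠ 1) : Perm.sign g = -1 :=
  (Int.units_eq_one_or _).resolve_left h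

/-- The submodule theorem for the alternating group. -/
theorem alt_eq_bot_or_eq (lam : YoungDiagram) (hcard : lam.card = n)
    (hlt : lam.colLen 0 < lam.rowLen 0) (P : Submodule ℂ (WM (Fin n)))
    (hP : P ≤ spechtSub n lam)
    (hst : ∀ g : Perm (Fin n), Perm.sign g = 1 → ∀ v ∈ P, wordRep (Fin n) g v ∈ P) :
    P = ⊥ ∨ P = spechtSub n lam := by
  classical
  have hc : Fintype.card lam.cells = n := by
    rw [Fintype.card_coe]
    exact hcard
  let t : Fin n ≃ lam.cells := (Fintype.equivFinOfCardEq hc).symm
  set r : Fin n → ℕ := fun x => (t x).1.1 with hr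
  set c : Fin n → ℕ := fun x => (t x).1.2 with hcdef
  have hl : IsLabel lam.cells r c := isLabel_of_equiv t
  -- points of the first row
  have hrow : ∀ j, j < lam.rowLen 0 → ∃ x, r x = 0 ∧ c x = j := by
    intro j hj
    exact hl.surj (0, j) ((YoungDiagram.mem_cells _).2 (YoungDiagram.mem_iff_lt_rowLen.2 hj))
  have hnon : Nonempty (Fin n) := (hrow 0 (by omega)).nonempty
  choose! pt hpt using hrow
  have hpos : 0 < lam.colLen 0 := by
    have h0 : ((0 : ℕ), (0 : ℕ)) ∈ lam := YoungDiagram.mem_iff_lt_rowLen.2 (by omega)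
    exact YoungDiagram.mem_iff_lt_colLen.1 h0
  have hne : pt 0 ≠ pt 1 := by
    intro h
    have h1 := (hpt 0 (by omega)).2
    have h2 := (hpt 1 (by omega)).2
    rw [h] at h1
    omega
  set τ : Perm (Fin n) := Equiv.swap (pt 0) (pt 1) with hτ
  have hτs : Perm.sign τ = -1 := Perm.sign_swap hne
  have hττ : τ * τ = 1 := Equiv.swap_mul_self _ _
  have hmul : ∀ (g h : Perm (Fin n)) (v : WM (Fin n)),
      wordRep (Fin n) g (wordRep (Fin n) h v) = wordRep (Fin n) (g * h) v := by
    intro g h v
    rw [map_mul]
    rfl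
  set P' : Submodule ℂ (WM (Fin n)) := P.map (wordRep (Fin n) τ) with hP'
  have hP'le : P' ≤ spechtSub n lam := by
    rintro _ ⟨v, hv, rfl⟩
    exact spechtSub_stable n lam τ (hP hv)
  have odd1 : ∀ g : Perm (Fin n), Perm.sign g = -1 → ∀ v ∈ P, wordRep (Fin n) g v ∈ P' := by
    intro g hg v hv
    refine ⟨wordRep (Fin n) (τ * g) v, hst _ ?_ v hv, ?_⟩
    · rw [Perm.sign_mul, hτs, hg]
      rfl
    · rw [hmul, ← mul_assoc, hττ, one_mul]
  have odd2 : ∀ g : Perm (Fin n), Perm.sign g = -1 → ∀ v ∈ P', wordRep (Fin n) g v ∈ P := by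
    rintro g hg _ ⟨v, hv, rfl⟩
    rw [hmul]
    refine hst _ ?_ v hv
    rw [Perm.sign_mul, hτs, hg]
    rfl
  have even2 : ∀ g : Perm (Fin n), Perm.sign g = 1 → ∀ v ∈ P', wordRep (Fin n) g v ∈ P' := by
    rintro g hg _ ⟨v, hv, rfl⟩
    rw [hmul]
    refine odd1 _ ?_ v hv
    rw [Perm.sign_mul, hτs, hg, one_mul]
  have hinf := eq_bot_or_eq lam (P ⊓ P') (inf_le_left.trans hP) (by
    intro g v hv
    by_cases hg : Perm.sign g = 1
    · exact ⟨hst g hg v hv.1, even2 g hg v hv.2⟩
    · exact ⟨odd2 g (sign_eq_neg_one hg) v hv.2, odd1 g (sign_eq_neg_one hg) v hv.1⟩)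
  have hsup := eq_bot_or_eq lam (P ⊔ P') (sup_le hP hP'le) (by
    intro g v hv
    obtain ⟨a, ha, b, hb, rfl⟩ := Submodule.mem_sup.1 hv
    rw [map_add]
    by_cases hg : Perm.sign g = 1
    · exact Submodule.add_mem_sup (hst g hg a ha) (even2 g hg b hb)
    · rw [add_comm]
      exact Submodule.add_mem_sup (odd2 g (sign_eq_neg_one hg) b hb)
        (odd1 g (sign_eq_neg_one hg) a ha))
  rcases hinf with hinf | hinf
  swap
  · exact Or.inr (le_antisymm hP (hinf ▸ inf_le_left))
  rcases hsup with hsup | hsup
  · exact Or.inl (le_bot_iff.1 (hsup ▸ le_sup_left))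
  exfalso
  -- the row symmetrisation of a polytabloid
  set f : WM (Fin n) := ∑ g ∈ stab r, wordRep (Fin n) g (polyt c r) with hf
  have hfmem : f ∈ spechtSub n lam :=
    Submodule.sum_mem _ fun g _ => spechtSub_stable n lam g (Submodule.subset_span ⟨t, rfl⟩)
  have hfne : f ≠ 0 := by
    intro h0
    have h1 : f r = 0 := by rw [h0]; rfl
    rw [hf, Finsupp.finsetSum_apply] at h1
    have h2 : ∀ g ∈ stab r, wordRep (Fin n) g (polyt c r) r = 1 := by
      intro g hg
      have h3 : r ∘ ⇑g = r := funext (mem_stab.1 hg)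
      rw [wordRep_apply', h3]
      exact polyt_apply_self hl
    rw [Finset.sum_congr rfl h2, Finset.sum_const, nsmul_eq_mul, mul_one] at h1
    exact card_stab_ne_zero r h1
  have hffix : ∀ π ∈ stab r, wordRep (Fin n) π f = f := by
    intro π hπ
    rw [hf, map_sum]
    refine Finset.sum_bij' (fun g _ => π * g) (fun g _ => π⁻¹ * g) ?_ ?_ ?_ ?_ ?_
    · intro g hg
      exact Conj.mul_mem_stab hπ hg
    · intro g hg
      exact Conj.mul_mem_stab (Conj.inv_mem_stab hπ) hg
    · intro g _
      simp
    · intro g _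
      simp
    · intro g _
      rw [hmul]
  rw [← hsup] at hfmem
  obtain ⟨u, hu, u', hu', huu⟩ := Submodule.mem_sup.1 hfmem
  have hzero : ∀ v, v ∈ P → v ∈ P' → v = 0 := by
    intro v h1 h2
    have : v ∈ P ⊓ P' := ⟨h1, h2⟩
    rw [hinf] at this
    exact this
  have hneg : ∀ π ∈ stab r, Perm.sign π = -1 → wordRep (Fin n) π (u - u') = -(u - u') := by
    intro π hπ hs
    have h1 := hffix π hπ
    rw [← huu, map_add] at h1
    have h2 : wordRep (Fin n) π u' - u = u' - wordRep (Fin n) π u := by
      rw [sub_eq_sub_iff_add_eq_add, add_comm u' u, ← h1, add_comm]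
    have h3 : wordRep (Fin n) π u' - u = 0 := by
      refine hzero _ (P.sub_mem (odd2 π hs u' hu') hu) ?_
      rw [h2]
      exact P'.sub_mem hu' (odd1 π hs u hu)
    have h4 : u' - wordRep (Fin n) π u = 0 := h2 ▸ h3
    rw [sub_eq_zero] at h3 h4
    rw [map_sub, h3, ← h4, neg_sub]
  have hw : u - u' = 0 := by
    ext z
    by_contra hz
    have hmem : u - u' ∈ spechtSub n lam := (spechtSub n lam).sub_mem (hP hu) (hP'le hu')
    have hz' : ∀ x, z x < lam.colLen 0 :=
      (Finsupp.mem_supported ℂ _).1 (specht_le_supported lam hmem)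
        (Finsupp.mem_support_iff.2 hz)
    obtain ⟨a, ha, b, hb, hab, hzab⟩ := Finset.exists_ne_map_eq_of_card_lt_of_maps_to
      (s := Finset.range (lam.rowLen 0)) (t := Finset.range (lam.colLen 0))
      (by simpa using hlt) (f := fun j => z (pt j)) (fun j _ => by simpa using hz' (pt j))
    rw [Finset.mem_range] at ha hb
    have hne' : pt a ≠ pt b := by
      intro h
      have h1 := (hpt a ha).2
      have h2 := (hpt b hb).2
      rw [h] at h1
      omega
    have hst' : Equiv.swap (pt a) (pt b) ∈ stab r := by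
      rw [mem_stab]
      intro x
      exact Equiv.apply_swap_eq_self ((hpt a ha).1.trans (hpt b hb).1.symm) x
    have h1 := congrArg (fun v : WM (Fin n) => v z) (hneg _ hst' (Perm.sign_swap hne'))
    simp only [wordRep_apply', Finsupp.neg_apply] at h1
    have h2 : z ∘ ⇑(Equiv.swap (pt a) (pt b)) = z :=
      funext fun x => Equiv.apply_swap_eq_self hzab x
    rw [h2] at h1
    exact hz (by
      rw [Finsupp.zero_apply]
      exact self_eq_neg.1 h1)
  rw [sub_eq_zero] at hw
  have h0 : u = 0 := hzero u hu (hw ▸ hu')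
  apply hfne
  rw [← huu, ← hw, h0, add_zero]

/-- The restriction of the Specht module to the alternating group. -/
abbrev altSpecht (n : ℕ) (lam : YoungDiagram) :
    Representation ℂ (alternatingGroup (Fin n)) (spechtSub n lam) :=
  (specht n lam).comp (alternatingGroup (Fin n)).subtype

set_option maxSynthPendingDepth 3 in
/-- A Specht module whose first row is longer than the first column stays irreducible on the
alternating group. -/
theorem altSpecht_irreducible (lam : YoungDiagram) (h : lam.card = n)
    (hlt : lam.colLen 0 < lam.rowLen 0) : (altSpecht n lam).IsIrreducible := by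
  have hcard : Fintype.card lam.cells = n := by
    rw [Fintype.card_coe]
    exact h
  let t : Fin n ≃ lam.cells := (Fintype.equivFinOfCardEq hcard).symm
  have hmem : polyt (fun x => (t x).1.2) (fun x => (t x).1.1) ∈ spechtSub n lam :=
    Submodule.subset_span ⟨t, rfl⟩
  have hbt : (⊥ : Subrepresentation (altSpecht n lam)) ≠ ⊤ := by
    intro hbt
    have h1 : (⟨_, hmem⟩ : spechtSub n lam) ∈ (⊤ : Subrepresentation (altSpecht n lam)) :=
      Submodule.mem_top
    rw [← hbt] at h1
    have h2 : (⟨_, hmem⟩ : spechtSub n lam) = 0 := h1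
    exact polyt_ne_zero (isLabel_of_equiv t) (congrArg Subtype.val h2)
  have hnt : Nontrivial (Subrepresentation (altSpecht n lam)) := ⟨⊥, ⊤, hbt⟩
  refine { eq_bot_or_eq_top := ?_ }
  intro U
  rcases alt_eq_bot_or_eq lam h hlt (U.toSubmodule.map (spechtSub n lam).subtype)
    (Submodule.map_subtype_le _ _) (by
      rintro g hg _ ⟨v, hv, rfl⟩
      exact ⟨specht n lam g v,
        U.apply_mem_toSubmodule ⟨g, Perm.mem_alternatingGroup.2 hg⟩ hv, rfl⟩) with h1 | h1
  · left
    apply Subrepresentation.toSubmodule_injective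
    change U.toSubmodule = ⊥
    rw [Submodule.eq_bot_iff]
    intro v hv
    have h2 : v.1 ∈ U.toSubmodule.map (spechtSub n lam).subtype := ⟨v, hv, rfl⟩
    rw [h1, Submodule.mem_bot] at h2
    exact Subtype.ext h2
  · right
    apply Subrepresentation.toSubmodule_injective
    change U.toSubmodule = ⊤
    rw [eq_top_iff]
    intro v _
    have h2 : v.1 ∈ U.toSubmodule.map (spechtSub n lam).subtype := by
      rw [h1]
      exact v.2
    obtain ⟨w, hw, hwv⟩ := h2
    have h3 : w = v := Subtype.ext hwv
    rw [← h3]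
    exact hw

set_option maxSynthPendingDepth 3 in
theorem exists_injective_of_kron {lam nu : YoungDiagram} (hnu : nu.card = n)
    (h : 0 < kron n lam lam nu) :
    ∃ T : (specht n nu).IntertwiningMap ((specht n lam).tprod (specht n lam)),
      Function.Injective T := by
  unfold kron at h
  have := Module.nontrivial_of_finrank_pos h
  obtain ⟨T, hT⟩ := exists_ne
    (0 : (specht n nu).IntertwiningMap ((specht n lam).tprod (specht n lam)))
  have hirr := specht_irreducible nu hnu
  exact ⟨T, (Representation.IsIrreducible.injective_or_eq_zero T).resolve_right hT⟩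

set_option maxSynthPendingDepth 3 in
/-- If the tensor square contains every Specht module up to conjugation, then the group algebra
of the alternating group acts faithfully on it. -/
theorem alt_faithful (lam : YoungDiagram)
    (h : ∀ nu : YoungDiagram, nu.card = n →
      0 < kron n lam lam nu ∨ 0 < kron n lam lam nu.transpose)
    (a : alternatingGroup (Fin n) → ℂ)
    (ha : ∀ u, ∑ g : alternatingGroup (Fin n),
      a g • ((altSpecht n lam).tprod (altSpecht n lam)) g u = 0) : a = 0 := by
  classical
  let a' : Perm (Fin n) → ℂ := fun g =>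
    if hg : g ∈ alternatingGroup (Fin n) then a ⟨g, hg⟩ else 0
  have ha'0 : ∀ g, Perm.sign g ≠ 1 → a' g = 0 := fun g hg =>
    dif_neg fun h' => hg (Perm.mem_alternatingGroup.1 h')
  have ha' : ∀ u, act a' ((specht n lam).tprod (specht n lam)) u = 0 := by
    intro u
    rw [act_apply, ← ha u]
    symm
    refine Finset.sum_of_injOn (fun g : alternatingGroup (Fin n) => g.1) ?_ ?_ ?_ ?_
    · intro g _ g' _ hgg
      exact Subtype.ext hgg
    · intro g _
      exact Finset.mem_univ _
    · intro g _ hg
      have : a' g = 0 := by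
        refine dif_neg fun h' => hg ⟨⟨g, h'⟩, ?_, rfl⟩
        exact Finset.mem_coe.2 (Finset.mem_univ _)
      rw [this, zero_smul]
    · intro g _
      have : a' g.1 = a g := dif_pos g.2
      rw [this]
      rfl
  have key : ∀ nu : YoungDiagram, nu.card = n → 0 < kron n lam lam nu →
      ∀ v, act a' (specht n nu) v = 0 := by
    intro nu hnu hk v
    obtain ⟨T, hT⟩ := exists_injective_of_kron hnu hk
    apply hT
    rw [act_map, ha', map_zero]
  have h0 : a' = 0 := by
    apply eq_zero_of_act a'
    intro W _ _ τ hτ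
    obtain ⟨nu, hnu, ⟨e⟩⟩ := classification τ hτ
    have hz : ∀ v, act a' (specht n nu) v = 0 := by
      rcases h nu hnu with hk | hk
      · exact key nu hnu hk
      · intro v
        obtain ⟨θ, hθ1, hθ2, hθ3⟩ := TS.pTw_of TS.pIrr (Fin n) nu
        have h1 := key nu.transpose ((Saxl.card_transpose nu).trans hnu) hk ⟨θ v.1, hθ2 v.1 v.2⟩
        have h2 := congrArg Subtype.val h1
        rw [act_apply, Submodule.coe_sum] at h2
        apply Subtype.ext
        refine hθ3 _ (act a' (specht n nu) v).2 ?_
        rw [act_apply, Submodule.coe_sum, map_sum]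
        refine Eq.trans (Finset.sum_congr rfl fun g _ => ?_) h2
        rw [Submodule.coe_smul, Submodule.coe_smul, map_smul, specht_coe, specht_coe, hθ1]
        by_cases hg : Perm.sign g = 1
        · rw [hg]
          simp
        · rw [ha'0 g hg, zero_smul, zero_smul]
    ext w
    have h2 : e.toIntertwiningMap (act a' τ w) = 0 := by
      rw [act_map, hz]
    exact e.toLinearEquiv.injective (h2.trans (map_zero e.toLinearEquiv).symm)
  funext g
  have h1 : a' g.1 = a g := dif_pos g.2
  rw [← h1, h0]
  rfl

set_option maxSynthPendingDepth 3 in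
/-- Every irreducible representation of the alternating group embeds in the tensor square. -/
theorem alt_universal (lam : YoungDiagram)
    (h : ∀ nu : YoungDiagram, nu.card = n →
      0 < kron n lam lam nu ∨ 0 < kron n lam lam nu.transpose)
    (W : Type) [AddCommGroup W] [Module ℂ W]
    (σ : Representation ℂ (alternatingGroup (Fin n)) W) (hσ : σ.IsIrreducible) :
    ∃ f : σ.IntertwiningMap ((altSpecht n lam).tprod (altSpecht n lam)),
      Function.Injective f := by
  have hnt : Nontrivial W := by
    by_contra hW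
    rw [not_nontrivial_iff_subsingleton] at hW
    obtain ⟨P, Q, hPQ⟩ := hσ.toNontrivial
    apply hPQ
    apply Subrepresentation.toSubmodule_injective
    ext x
    rw [Subsingleton.elim x 0]
    simp
  obtain ⟨T, hT⟩ := exists_map_of_faithful ((altSpecht n lam).tprod (altSpecht n lam))
    (alt_faithful lam h) (MonoidHom.id _) Function.injective_id σ
  exact ⟨T, (Representation.IsIrreducible.injective_or_eq_zero T).resolve_right hT⟩

end

end Vale.Agent.N197
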