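import Vale.Agent.N197.Poly
import Mathlib.Data.Fin.Tuple.Sort

/-!
# Two rows differing by two, and adding columns
-/

namespace Vale.Agent.N197

open Equiv Finset Vale.Agent.P197 Vale.Agent.P197.H369

noncomputable section

/-- A set of cells with arbitrary column heights is a Young diagram with permuted columns. -/
theorem exists_sorted_diagram (S : Finset (ℕ × ℕ)) (bd : ℕ → ℕ)
    (hS : ∀ d, d ∈ S ↔ d.1 < bd d.2) :
    ∃ (ν : YoungDiagram) (φ : ℕ → ℕ), Function.Injective φ ∧
      S = ν.cells.image fun d => (d.1, φ d.2) := by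
  classical
  set K := S.sup (fun d => d.2) + 1 with hK
  have hK0 : ∀ c, K ≤ c → bd c = 0 := by
    intro c hc
    by_contra h
    have h1 : (0, c) ∈ S := (hS _).2 (Nat.pos_of_ne_zero h)
    have h2 : c ≤ S.sup (fun d => d.2) := Finset.le_sup (f := fun d : ℕ × ℕ => d.2) h1
    omega
  let g : Fin K → ℕᵒᵈ := fun k => OrderDual.toDual (bd k)
  let σ : Perm (Fin K) := Tuple.sort g
  have hmono : Monotone (g ∘ σ) := Tuple.monotone_sort g
  let φ : ℕ → ℕ := fun k => if h : k < K then (σ ⟨k, h⟩ : ℕ) else k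
  have hφ1 : ∀ k (h : k < K), φ k = (σ ⟨k, h⟩ : ℕ) := fun k h => dif_pos h
  have hφ2 : ∀ k, ¬ k < K → φ k = k := fun k h => dif_neg h
  have hinj : Function.Injective φ := by
    intro a b hab
    by_cases ha : a < K
    · by_cases hb : b < K
      · rw [hφ1 a ha, hφ1 b hb] at hab
        exact congrArg Fin.val (σ.injective (Fin.ext hab))
      · rw [hφ1 a ha, hφ2 b hb] at hab
        have := (σ ⟨a, ha⟩).2
        omega
    · by_cases hb : b < K
      · rw [hφ2 a ha, hφ1 b hb] at hab
        have := (σ ⟨b, hb⟩).2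
        omega
      · rwa [hφ2 a ha, hφ2 b hb] at hab
  have hsurj : Function.Surjective φ := by
    intro c
    by_cases hc : c < K
    · refine ⟨(σ.symm ⟨c, hc⟩ : ℕ), ?_⟩
      rw [hφ1 _ (σ.symm ⟨c, hc⟩).2]
      simp
    · exact ⟨c, hφ2 c hc⟩
  have hN : ∀ k, K ≤ k → (bd ∘ φ) k = 0 := by
    intro k hk
    rw [Function.comp_apply, hφ2 k (by omega), hK0 k hk]
  have hanti : Antitone (bd ∘ φ) := by
    intro a b hab
    by_cases hb : b < K
    · have ha : a < K := by omega
      have h1 := hmono (show (⟨a, ha⟩ : Fin K) ≤ ⟨b, hb⟩ from hab)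
      rw [Function.comp_apply, Function.comp_apply, hφ1 a ha, hφ1 b hb]
      exact h1
    · rw [hN b (by omega)]
      exact Nat.zero_le _
  refine ⟨(ofFun (bd ∘ φ) hanti K).transpose, φ, hinj, ?_⟩
  ext d
  rw [hS, Finset.mem_image]
  constructor
  · intro hd
    obtain ⟨k, hk⟩ := hsurj d.2
    refine ⟨(d.1, k), ?_, by rw [hk]⟩
    rw [YoungDiagram.mem_cells, YoungDiagram.mem_transpose, mem_ofFun hN]
    simpa [hk] using hd
  · rintro ⟨d', hd', rfl⟩
    rw [YoungDiagram.mem_cells, YoungDiagram.mem_transpose, mem_ofFun hN] at hd'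
    exact hd'

variable {X : Type} [Fintype X] [DecidableEq X]

/-- The staircase meets every set of cells with arbitrary column heights. -/
theorem stair_any {m : ℕ} {i j : X → ℕ} (hs : IsStair m i j) (S : Finset (ℕ × ℕ)) (bd : ℕ → ℕ)
    (hS : ∀ d, d ∈ S ↔ d.1 < bd d.2) (hcard : S.card = m * (m + 1) / 2) :
    SkewOcc j i (r0 m i j) S := by
  obtain ⟨ν, φ, hφ, rfl⟩ := exists_sorted_diagram S bd hS
  refine skewOcc_relabel φ hφ ((occ_iff _ _ _ _).1 (occ_staircase hs ν ?_))
  rw [Finset.card_image_of_injective] at hcard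
  · exact hcard
  · intro a b hab
    simp only [Prod.mk.injEq] at hab
    exact Prod.ext hab.1 (hφ hab.2)

theorem exists_amounts (cap : ℕ → ℕ) (C : Finset ℕ) : ∀ s, s ≤ ∑ c ∈ C, cap c →
    ∃ x : ℕ → ℕ, (∀ c, x c ≤ cap c) ∧ (∀ c, c ∉ C → x c = 0) ∧ ∑ c ∈ C, x c = s := by
  induction C using Finset.induction_on with
  | empty =>
    intro s hs
    exact ⟨fun _ => 0, fun _ => Nat.zero_le _, fun _ _ => rfl, by simpa using hs.antisymm' (by simp)⟩
  | insert a C ha ih =>
    intro s hs
    rw [Finset.sum_insert ha] at hs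
    obtain ⟨x, h1, h2, h3⟩ := ih (s - cap a) (by omega)
    refine ⟨Function.update x a (min s (cap a)), ?_, ?_, ?_⟩
    · intro c
      by_cases hc : c = a
      · rw [hc, Function.update_self]
        exact min_le_right _ _
      · rw [Function.update_of_ne hc]
        exact h1 c
    · intro c hc
      rw [Finset.mem_insert, not_or] at hc
      rw [Function.update_of_ne hc.1]
      exact h2 c hc.2
    · rw [Finset.sum_insert ha, Function.update_self,
        Finset.sum_congr rfl fun c hc => Function.update_of_ne (ne_of_mem_of_not_mem hc ha) _ _,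
        h3]
      omega

/-- The lowest `x c` cells of column `c`. -/
def low (ν : YoungDiagram) (x : ℕ → ℕ) : Finset (ℕ × ℕ) :=
  ν.cells.filter fun d => ν.colLen d.2 ≤ d.1 + x d.2

theorem mem_low {ν : YoungDiagram} {x : ℕ → ℕ} {d : ℕ × ℕ} :
    d ∈ low ν x ↔ d.1 < ν.colLen d.2 ∧ ν.colLen d.2 ≤ d.1 + x d.2 := by
  rw [low, Finset.mem_filter, YoungDiagram.mem_cells]
  exact and_congr_left' (YoungDiagram.mem_iff_lt_colLen (i := d.1) (j := d.2))

theorem card_low (ν : YoungDiagram) (x : ℕ → ℕ) (C : Finset ℕ) (h1 : ∀ c, x c ≤ ν.colLen c)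
    (h2 : ∀ c, c ∉ C → x c = 0) : (low ν x).card = ∑ c ∈ C, x c := by
  rw [Finset.card_eq_sum_card_fiberwise (f := fun d : ℕ × ℕ => d.2) (t := C)]
  · refine Finset.sum_congr rfl fun c _ => ?_
    have h3 : (low ν x).filter (fun d => d.2 = c) =
        (Finset.Ico (ν.colLen c - x c) (ν.colLen c)).image fun a => (a, c) := by
      ext ⟨a, b⟩
      simp only [Finset.mem_filter, mem_low, Finset.mem_image, Finset.mem_Ico, Prod.mk.injEq]
      constructor
      · rintro ⟨⟨h4, h5⟩, rfl⟩
        exact ⟨a, ⟨by omega, h4⟩, rfl, rfl⟩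
      · rintro ⟨a', ⟨h4, h5⟩, rfl, rfl⟩
        exact ⟨⟨h5, by omega⟩, rfl⟩
    rw [h3, Finset.card_image_of_injective _ (fun a b hab => by simpa using hab), Nat.card_Ico]
    have := h1 c
    omega
  · intro d hd
    have h3 := mem_low.1 (Finset.mem_coe.1 hd)
    by_contra hc
    have := h2 d.2 hc
    omega

theorem low_mod {ν : YoungDiagram} {x : ℕ → ℕ} (h : ∀ c, x c ≤ 4) :
    ∀ d ∈ low ν x, ∀ d' ∈ low ν x, d.2 = d'.2 → d.1 % 4 = d'.1 % 4 → d = d' := by
  intro d hd d' hd' h1 h2
  rw [mem_low] at hd hd'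
  have := h d.2
  rw [← h1] at hd'
  exact Prod.ext (by omega) h1

/-- One residue class of columns of two rows differing by `d` is a zigzag. -/
theorem zig_skew {Y : Type} [Fintype Y] [DecidableEq Y] (d k a0 : ℕ) (hd : d = 1 ∨ d = 2)
    (hk : k < d) (hka : k < a0) (r i j : Y → ℕ) (h1 : ∀ y, r y < 2)
    (h2 : ∀ y, i y + j y + 1 + d * r y = a0) (h3 : ∀ y, j y % d = k)
    (hinj : ∀ y z, r y = r z → j y = j z → y = z)
    (hsurj : ∀ a b, a < 2 → b + d * a < a0 → b % d = k → ∃ y, r y = a ∧ j y = b)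
    (S : Finset (ℕ × ℕ)) (hcard : S.card = 2 * ((a0 - k + d - 1) / d) - 1)
    (hS : ∀ c ∈ S, ∀ c' ∈ S, c.2 = c'.2 → c.1 % 4 = c'.1 % 4 → c = c') : SkewOcc j i r S := by
  have hz : IsZig ((a0 - k + d - 1) / d) (fun y => i y / d) (fun y => j y / d) := by
    refine ⟨?_, ?_, ?_, ?_⟩
    · intro y
      have := h1 y
      have := h2 y
      have := h3 y
      rcases hd with rfl | rfl <;> omega
    · intro y
      have := h1 y
      have := h2 y
      have := h3 y
      rcases hd with rfl | rfl <;> omega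
    · intro y z e1 e2
      have := h1 y
      have := h2 y
      have := h3 y
      have := h1 z
      have := h2 z
      have := h3 z
      refine hinj y z ?_ ?_ <;> rcases hd with rfl | rfl <;> omega
    · intro a b hab hab'
      obtain ⟨y, hy1, hy2⟩ := hsurj ((a0 - k + d - 1) / d - 1 - a - b) (d * b + k)
        (by omega) (by rcases hd with rfl | rfl <;> omega) (by rcases hd with rfl | rfl <;> omega)
      have := h2 y
      refine ⟨y, ?_, ?_⟩ <;> rcases hd with rfl | rfl <;> omega
  refine skewOcc_congr (d := fun y => j y / d) (d' := fun y => i y / d) ?_ ?_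
    (skewOcc_four ?_ hz ?_ S hcard hS)
  · intro y z
    have := h3 y
    have := h3 z
    rcases hd with rfl | rfl <;> omega
  · intro y z
    have := h2 y
    have := h3 y
    have := h2 z
    have := h3 z
    rcases hd with rfl | rfl <;> omega
  · rcases hd with rfl | rfl <;> omega
  · funext y
    have := h1 y
    have := h2 y
    have := h3 y
    simp only [r0]
    rcases hd with rfl | rfl <;> omega

/-- Two disjoint sets of columns from which `s1` and `s2` cells can be taken, at most four in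
each column. -/
def Feas (ν : YoungDiagram) (s1 s2 : ℕ) : Prop :=
  ∃ C1 C2 : Finset ℕ, Disjoint C1 C2 ∧ s1 ≤ ∑ c ∈ C1, min 4 (ν.colLen c) ∧
    s2 ≤ ∑ c ∈ C2, min 4 (ν.colLen c)

theorem Feas.symm {ν : YoungDiagram} {s1 s2 : ℕ} (h : Feas ν s1 s2) : Feas ν s2 s1 := by
  obtain ⟨C1, C2, h1, h2, h3⟩ := h
  exact ⟨C2, C1, h1.symm, h3, h2⟩

/-- **Two rows differing by two on top of a staircase.** -/
theorem occ_block {A : ℕ → ℕ} {m : ℕ} (h0 : A 0 = A 1 + 2) (h1 : m < A 1)
    (htail : ∀ a, A (a + 2) = m - a) {r i j : X → ℕ} (h : IsLab A r i j) (ν : YoungDiagram)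
    (hν : ν.card = Fintype.card X)
    (hF : Feas ν (2 * ((A 0 + 1) / 2) - 1) (2 * (A 0 / 2) - 1)) : Occ j i r ν := by
  classical
  obtain ⟨C1, C2, hdis, hC1, hC2⟩ := hF
  obtain ⟨x1, hx1, hx1', hx1s⟩ := exists_amounts _ C1 _ hC1
  obtain ⟨x2, hx2, hx2', hx2s⟩ := exists_amounts _ C2 _ hC2
  have hx12 : ∀ c, x1 c = 0 ∨ x2 c = 0 := by
    intro c
    by_cases hc : c ∈ C1
    · exact Or.inr (hx2' c (Finset.disjoint_left.1 hdis hc))
    · exact Or.inl (hx1' c hc)
  have hc1 := card_low ν x1 C1 (fun c => (hx1 c).trans (min_le_right _ _)) hx1'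
  have hc2 := card_low ν x2 C2 (fun c => (hx2 c).trans (min_le_right _ _)) hx2'
  have hcol : ∀ d ∈ low ν x1, ∀ d' ∈ low ν x2, d.2 ≠ d'.2 := by
    intro d hd d' hd' he
    rw [mem_low] at hd hd'
    have := hx12 d.2
    rw [← he] at hd'
    omega
  let bd : ℕ → ℕ := fun c => ν.colLen c - x1 c - x2 c
  let S3 : Finset (ℕ × ℕ) := ν.cells.filter fun d => d.1 < bd d.2
  have hS3 : ∀ d, d ∈ S3 ↔ d.1 < bd d.2 := by
    intro d
    rw [Finset.mem_filter, YoungDiagram.mem_cells]
    refine ⟨fun h => h.2, fun h => ⟨?_, h⟩⟩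
    refine (YoungDiagram.mem_iff_lt_colLen (i := d.1) (j := d.2)).2 ?_
    simp only [bd] at h
    omega
  have hU : (low ν x1 ∪ low ν x2) ∪ S3 = ν.cells := by
    ext d
    rw [Finset.mem_union, Finset.mem_union, mem_low, mem_low, hS3, YoungDiagram.mem_cells,
      YoungDiagram.mem_iff_lt_colLen (i := d.1) (j := d.2)]
    have := hx12 d.2
    simp only [bd]
    omega
  have hlowbd : ∀ d ∈ low ν x1 ∪ low ν x2, bd d.2 ≤ d.1 := by
    intro d hd
    rw [Finset.mem_union, mem_low, mem_low] at hd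
    simp only [bd]
    omega
  have hr01 : ∀ x : X, r x < 2 → A (r x) + 2 * r x = A 0 := by
    intro x hx
    have : r x = 0 ∨ r x = 1 := by omega
    rcases this with h2 | h2 <;> rw [h2] <;> omega
  have hsurj : ∀ a b, a < 2 → b + 2 * a < A 0 → ∃ x, r x = a ∧ j x = b := by
    intro a b ha hb
    refine h.surj a b ?_
    have : a = 0 ∨ a = 1 := by omega
    rcases this with rfl | rfl <;> omega
  refine skewOcc_step 2 (fun x => r x < 2) j i r (fun x => Iff.rfl) ?_ ν _ S3 bd hU hlowbd
    (fun d hd => (hS3 d).1 hd) ?_ ?_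
  · intro g π ρ hπ hρ h2 h3
    refine pres_of_stab (m := A 1 + 1) (fun x => r x < 2) ?_ g π ρ hπ hρ h2 h3
    intro x
    have := h.eq x
    constructor
    · intro hx
      have := hr01 x hx
      omega
    · intro hx
      by_contra hc
      have h4 := htail (r x - 2)
      rw [Nat.sub_add_cancel (by omega)] at h4
      omega
  · refine skewOcc_prod (fun y : {x // r x < 2} => j y.1 % 2 = 0) _ _ _ ?_ ?_ hcol ?_ ?_
    · intro y z hyz
      simp only [resW] at hyz
      rw [hyz]
    · intro y z hyz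
      simp only [resW] at hyz
      have := h.eq y.1
      have := h.eq z.1
      have := hr01 y.1 y.2
      have := hr01 z.1 z.2
      omega
    · refine zig_skew 2 0 (A 0) (Or.inr rfl) (by omega) (by omega) _ _ _ (fun y => y.1.2) ?_
        (fun y => y.2) ?_ ?_ _ ?_ (low_mod fun c => (hx1 c).trans (min_le_left _ _))
      · intro y
        have := h.eq y.1.1
        have := hr01 y.1.1 y.1.2
        simp only [resW]
        omega
      · intro y z e1 e2
        exact Subtype.ext (Subtype.ext (h.inj _ _ e1 e2))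
      · intro a b ha hb hk
        obtain ⟨x, hx, hx'⟩ := hsurj a b ha hb
        exact ⟨⟨⟨x, by omega⟩, by rw [hx']; exact hk⟩, hx, hx'⟩
      · rw [hc1, hx1s]
        omega
    · refine zig_skew 2 1 (A 0) (Or.inr rfl) (by omega) (by omega) _ _ _ (fun y => y.1.2) ?_
        (fun y => ?_) ?_ ?_ _ ?_ (low_mod fun c => (hx2 c).trans (min_le_left _ _))
      · intro y
        have := h.eq y.1.1
        have := hr01 y.1.1 y.1.2
        simp only [resW]
        omega
      · have := y.2
        simp only [resW]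
        omega
      · intro y z e1 e2
        exact Subtype.ext (Subtype.ext (h.inj _ _ e1 e2))
      · intro a b ha hb hk
        obtain ⟨x, hx, hx'⟩ := hsurj a b ha hb
        exact ⟨⟨⟨x, by omega⟩, by rw [hx']; omega⟩, hx, hx'⟩
      · rw [hc2, hx2s]
        omega
  · obtain ⟨hs, hr⟩ := (h.rest 2 (fun x => r x < 2) (fun x => Iff.rfl)).stair (m := m) htail
    rw [hr]
    refine stair_any hs S3 bd hS3 ?_
    have e1 := card_of_stair hs
    have e2 := h.card_compl 2
    simp only [Finset.sum_range_succ, Finset.sum_range_zero, zero_add] at e2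
    have e3 : ν.cells.card = ν.card := rfl
    rw [← hU, Finset.card_union_of_disjoint (Finset.disjoint_left.2 fun d hd hd' => by
        have := hlowbd d hd
        have := (hS3 d).1 hd'
        omega),
      Finset.card_union_of_disjoint (Finset.disjoint_left.2 fun d hd hd' => hcol d hd d hd' rfl),
      hc1, hc2, hx1s, hx2s] at e3
    omega

/-- Peeling a pair of consecutive rows. -/
theorem occ_pair_step {A : ℕ → ℕ} (h0 : A 0 = A 1 + 1) (h1 : ∀ a, 2 ≤ a → A a < A 1)
    {r i j : X → ℕ} (h : IsLab A r i j) (ν ν2 : YoungDiagram) (hle : ν2 ≤ ν)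
    (hcol : ∀ d, ν.colLen d ≤ ν2.colLen d + 4) (hcard : ν2.card + (A 0 + A 1) = ν.card)
    (h2 : Occ (resW (fun x => ¬ r x < 2) j) (resW (fun x => ¬ r x < 2) i)
      (fun x => r x.1 - 2) ν2) : Occ j i r ν := by
  have hr01 : ∀ x : X, r x < 2 → A (r x) + 1 * r x = A 0 := by
    intro x hx
    have : r x = 0 ∨ r x = 1 := by omega
    rcases this with h2 | h2 <;> rw [h2] <;> omega
  refine occ_peel h 2 (A 1) ?_ h1 ν ν2 hle ?_ h2
  · intro a ha
    have : a = 0 ∨ a = 1 := by omega
    rcases this with rfl | rfl <;> omega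
  · refine zig_skew 1 0 (A 0) (Or.inl rfl) (by omega) (by omega) _ _ _ (fun y => y.2) ?_
      (fun y => Nat.mod_one _) ?_ ?_ _ ?_ ?_
    · intro y
      have := h.eq y.1
      have := hr01 y.1 y.2
      simp only [resW]
      omega
    · intro y z e1 e2
      exact Subtype.ext (h.inj _ _ e1 e2)
    · intro a b ha hb _
      obtain ⟨x, hx, hx'⟩ := h.surj a b (by
        have : a = 0 ∨ a = 1 := by omega
        rcases this with rfl | rfl <;> omega)
      exact ⟨⟨x, by omega⟩, hx, hx'⟩
    · rw [card_sdiff_cells hle hcard]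
      omega
    · intro d hd d' hd' h3 h4
      have h5 := colLen_sdiff hcol hd hd' h3
      have h6 := colLen_sdiff hcol hd' hd h3.symm
      exact Prod.ext (by omega) h3

/-- A tableau paired with itself meets every horizontal strip. -/
theorem skewOcc_diag (c r : X → ℕ) (hinj : ∀ x y, r x = r y → c x = c y → x = y)
    (S : Finset (ℕ × ℕ)) (hcard : S.card = Fintype.card X)
    (hS : ∀ d ∈ S, ∀ d' ∈ S, d.2 = d'.2 → d = d') : SkewOcc c c r S := by
  classical
  have eS : X ≃ S := by
    refine Fintype.equivOfCardEq ?_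
    rw [Fintype.card_coe, hcard]
  refine ⟨fun x => (eS x).1.1, fun x => (eS x).1.2, ⟨fun x => (eS x).2, ?_, ?_⟩,
    fun u u' => if u = u' then 1 else 0, ?_, ?_⟩
  · intro x y h1 h2
    exact eS.injective (Subtype.ext (Prod.ext h1 h2))
  · intro c hc
    exact ⟨eS.symm ⟨c, hc⟩, by simp, by simp⟩
  · intro ρ _ u u'
    refine if_congr ⟨fun h => ?_, fun h => by rw [h]⟩ rfl rfl
    funext x
    simpa using congrFun h (ρ⁻¹ x)
  · have hinj' : Function.Injective (fun x => (eS x).1.2) := by
      intro x y hxy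
      exact eS.injective (Subtype.ext (hS _ (eS x).2 _ (eS y).2 hxy))
    rw [stab_of_injective hinj', Finset.sum_singleton, Perm.sign_one, Quat.Fn_kform]
    have e : ∀ σ ∈ stab c, ∑ τ ∈ stab c, ((Perm.sign σ : ℤ) : ℂ) * ((Perm.sign τ : ℤ) : ℂ) *
        (if (r ∘ ⇑(σ⁻¹ : Perm X)) ∘ ⇑((1 : Perm X)⁻¹ : Perm X) =
          (r ∘ ⇑(τ⁻¹ : Perm X)) ∘ ⇑((1 : Perm X)⁻¹ : Perm X) then (1 : ℂ) else 0) = 1 := by
      intro σ hσ
      rw [Finset.sum_eq_single σ]
      · rw [if_pos rfl, Conj.sgn_sq, mul_one]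
      · intro τ hτ hne
        rw [if_neg, mul_zero]
        intro he
        apply hne
        rw [← inv_inj]
        ext x
        have h1 := congrFun he x
        simp only [inv_one, Perm.coe_one, Function.comp_apply, id_eq] at h1
        have h2 := mem_stab.1 (Conj.inv_mem_stab hσ) x
        have h3 := mem_stab.1 (Conj.inv_mem_stab hτ) x
        exact hinj _ _ h1.symm (h3.trans h2.symm)
      · intro h
        exact absurd hσ h
    rw [Finset.sum_congr rfl e, Finset.sum_const, nsmul_eq_mul, mul_one]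
    simpa using H328.card_stab_ne_zero c

end

end Vale.Agent.N197
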