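import Vale.Agent.N197.Kron

/-!
# For every `n ≥ 5` a tensor square containing every Specht module up to conjugation
-/

namespace Vale.Agent.N197

open Finset Vale.Agent.P197 Vale.Agent.P197.H369

/-- Some diagram with first row longer than the first column has a tensor square containing
every Specht module up to conjugation. -/
def Good (n : ℕ) : Prop :=
  ∃ lam : YoungDiagram, lam.card = n ∧ lam.colLen 0 < lam.rowLen 0 ∧
    ∀ ν : YoungDiagram, ν.card = n → 0 < kron n lam lam ν ∨ 0 < kron n lam lam ν.transpose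

theorem good_of_sh1 {n a1 a2 m : ℕ} (h1 : m < a2) (h2 : a2 < a1) (h3 : m + 3 ≤ a1)
    (hn : n = a1 + a2 + m * (m + 1) / 2)
    (H : ∀ lam, Sh1 lam a1 a2 m → lam.card = n → ∀ ν : YoungDiagram, ν.card = n →
      0 < kron n lam lam ν ∨ 0 < kron n lam lam ν.transpose) : Good n := by
  obtain ⟨lam, h⟩ := exists_sh1 h2.le h1.le
  have hc : lam.card = n := h.card.trans hn.symm
  refine ⟨lam, hc, ?_, H lam h hc⟩
  have := colLen_le_of_tail lam 2 m h.tail
  rw [h.row0]
  omega

/-- Failure for two rows bounds the first four rows. -/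
theorem Sh1.top_le {n : ℕ} {lam : YoungDiagram} {a1 a2 m : ℕ} (h : Sh1 lam a1 a2 m)
    (hn : lam.card = n) (h1 : m < a2) {X : ℕ}
    (hd : (a1 = a2 + 1 ∧ a1 + a2 ≤ X + 1) ∨ (a1 = a2 + 2 ∧ a1 + a2 + 2 ≤ X))
    (ν : YoungDiagram) (hν : ν.card = n) (hk : ¬ 0 < kron n lam lam ν) : firstRows ν 4 ≤ X := by
  by_contra hc
  refine hk (h.kron_pos hn h1 ν hν ?_)
  rcases hd with ⟨hd, hX⟩ | ⟨hd, hX⟩
  · exact Or.inl ⟨hd, by omega⟩
  · exact Or.inr ⟨hd, feas_of_le ν (by omega)⟩

theorem good_one {n a1 a2 m X P : ℕ} (h1 : m < a2) (h3 : m + 3 ≤ a1)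
    (hn : n = a1 + a2 + m * (m + 1) / 2)
    (hd : (a1 = a2 + 1 ∧ a1 + a2 ≤ X + 1) ∨ (a1 = a2 + 2 ∧ a1 + a2 + 2 ≤ X))
    (hP : X < 4 * (P + 1)) (c1 : X < n) (c2 : 2 * X < n + 7)
    (c3 : 2 * X + (P - 4) * (P - 4) < n + 16) : Good n := by
  refine good_of_sh1 h1 (by omega) h3 hn fun lam h hc ν hν => ?_
  by_contra hk
  rw [not_or] at hk
  have e1 := h.top_le hc h1 hd ν hν hk.1
  have e2 := h.top_le hc h1 hd ν.transpose ((Saxl.card_transpose ν).trans hν) hk.2
  have e3 := size_cases ν 3 X P e1 e2 hP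
  norm_num at e3
  omega

theorem good_two {n b a1 a2 m X P : ℕ} (h0 : a1 < b) (h1 : m < a2)
    (hd : a1 = a2 + 1 ∨ a1 = a2 + 2) (hn : n = 2 * b + 1 + a1 + a2 + m * (m + 1) / 2)
    (hX : 2 * b + 1 + a1 + a2 + 2 ≤ X) (hX' : 2 * b + 4 * (b / 2) ≤ X)
    (h3 : m + 4 ≤ b) (hP : X < 8 * (P + 1)) (c1 : X < n) (c2 : 2 * X < n + 15)
    (c3 : 2 * X + (P - 8) * (P - 8) < n + 64) : Good n := by
  obtain ⟨lam, h⟩ := exists_sh2 (b := b) (a1 := a1) (a2 := a2) (m := m) h0.le (by omega) h1.le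
  have hc : lam.card = n := h.card.trans hn.symm
  refine ⟨lam, hc, ?_, fun ν hν => ?_⟩
  · have := colLen_le_of_tail lam 4 m h.tail
    rw [h.row0]
    omega
  have key : ∀ ν : YoungDiagram, ν.card = n → ¬ 0 < kron n lam lam ν → firstRows ν 8 ≤ X := by
    intro ν hν hk
    by_contra hcon
    refine hk (h.kron_pos hc h0 h1 hd ν hν ?_ (by omega))
    have := ν.rowLen_anti 0 1 (by omega)
    have := ν.rowLen_anti 1 2 (by omega)
    have := ν.rowLen_anti 2 3 (by omega)
    have := ν.rowLen_anti 3 4 (by omega)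
    have := ν.rowLen_anti 4 5 (by omega)
    have := ν.rowLen_anti 5 6 (by omega)
    have := ν.rowLen_anti 6 7 (by omega)
    simp only [firstRows, Finset.sum_range_succ, Finset.sum_range_zero] at hcon ⊢
    omega
  by_contra hk
  rw [not_or] at hk
  have e1 := key ν hν hk.1
  have e2 := key ν.transpose ((Saxl.card_transpose ν).trans hν) hk.2
  have e3 := size_cases ν 7 X P e1 e2 hP
  norm_num at e3
  omega

/-- Cells in the first `v` columns of four rows. -/
def capT (r0 r1 r2 r3 v : ℕ) : ℕ := min v r0 + min v r1 + min v r2 + min v r3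

/-- The potential of four rows. -/
def phi (r0 r1 r2 r3 : ℕ) : ℕ :=
  2 * (r0 + r1 + r2 + r3) - capT r0 r1 r2 r3 4 + (r3 - 4) * (r3 - 4)

/-- The four rows are impossible or give positivity. -/
def okT (n a1 a2 E r0 r1 r2 r3 : ℕ) : Prop :=
  (r3 = 0 ∧ r0 + r1 + r2 + r3 ≠ n) ∨ n < r0 + r1 + r2 + r3 ∨ r1 + E ≤ r0 ∨
    (a1 = a2 + 1 ∧ a1 + a2 ≤ r0 + r1 + r2 + r3) ∨
    (a1 = a2 + 2 ∧ ∃ v ≤ r0, ∃ u ≤ v,
      (2 * ((a1 + 1) / 2) - 1 + capT r0 r1 r2 r3 u ≤ capT r0 r1 r2 r3 v ∧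
        capT r0 r1 r2 r3 v + (2 * (a1 / 2) - 1) ≤ r0 + r1 + r2 + r3 + capT r0 r1 r2 r3 u) ∨
      (2 * (a1 / 2) - 1 + capT r0 r1 r2 r3 u ≤ capT r0 r1 r2 r3 v ∧
        capT r0 r1 r2 r3 v + (2 * ((a1 + 1) / 2) - 1) ≤ r0 + r1 + r2 + r3 + capT r0 r1 r2 r3 u))

instance (n a1 a2 E r0 r1 r2 r3 : ℕ) : Decidable (okT n a1 a2 E r0 r1 r2 r3) := by
  unfold okT
  infer_instance

/-- The rows and the columns are compatible. -/
def consT (r0 r2 r3 c0 c3 : ℕ) : Prop :=
  (0 < c3 ↔ 3 < r0) ∧ (0 < r2 ↔ 2 < c0) ∧ (0 < r3 ↔ 3 < c0)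

instance (r0 r2 r3 c0 c3 : ℕ) : Decidable (consT r0 r2 r3 c0 c3) := by
  unfold consT
  infer_instance

/-- The check of the columns, given the rows. -/
def pairT (n a1 a2 E r0 r1 r2 r3 : ℕ) : Prop :=
  ∀ c0 ≤ a1 + a2 + 2, ∀ c1 ≤ min c0 (a1 + a2 + 2 - c0), ∀ c2 ≤ min c1 (a1 + a2 + 2 - c0 - c1),
    ∀ c3 ≤ min c2 (a1 + a2 + 2 - c0 - c1 - c2), phi r0 r1 r2 r3 + phi c0 c1 c2 c3 < 2 * n ∨
      okT n a1 a2 E c0 c1 c2 c3 ∨ ¬ consT r0 r2 r3 c0 c3

set_option synthInstance.maxSize 1024 in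
instance (n a1 a2 E r0 r1 r2 r3 : ℕ) : Decidable (pairT n a1 a2 E r0 r1 r2 r3) := by
  unfold pairT
  infer_instance

/-- The finite check. -/
def check (n a1 a2 E : ℕ) : Prop :=
  ∀ r0 ≤ a1 + a2 + 2, ∀ r1 ≤ min r0 (a1 + a2 + 2 - r0), ∀ r2 ≤ min r1 (a1 + a2 + 2 - r0 - r1),
    ∀ r3 ≤ min r2 (a1 + a2 + 2 - r0 - r1 - r2), phi r0 r1 r2 r3 < n ∨ okT n a1 a2 E r0 r1 r2 r3 ∨
      pairT n a1 a2 E r0 r1 r2 r3

instance (n a1 a2 E : ℕ) : Decidable (check n a1 a2 E) := by
  unfold check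
  infer_instance

theorem two_card_le (ν : YoungDiagram) :
    2 * ν.card ≤ phi (ν.rowLen 0) (ν.rowLen 1) (ν.rowLen 2) (ν.rowLen 3) +
      phi (ν.colLen 0) (ν.colLen 1) (ν.colLen 2) (ν.colLen 3) := by
  have h1 := size_le ν 3
  have h2 := sum_min ν 4 4
  have h3 : ∀ a b : ℕ, 2 * (a * b) ≤ a * a + b * b := fun a b => by
    nlinarith [sq_nonneg ((a : ℤ) - b)]
  have h4 := h3 (ν.colLen 3 - 4) (ν.rowLen 3 - 4)
  simp only [firstRows, YoungDiagram.rowLen_transpose, Finset.sum_range_succ,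
    Finset.sum_range_zero] at h1 h2
  norm_num at h1
  simp only [phi, capT]
  omega

theorem Sh1.kron_of_ok {n : ℕ} {lam : YoungDiagram} {a1 a2 m E : ℕ} (h : Sh1 lam a1 a2 m)
    (hn : lam.card = n) (h1 : m < a2) (h2 : a2 < a1) (hE : n = (m + 2) * (m + 2 + 1) / 2 + E)
    (ν : YoungDiagram) (hν : ν.card = n)
    (hok : okT n a1 a2 E (ν.rowLen 0) (ν.rowLen 1) (ν.rowLen 2) (ν.rowLen 3)) :
    0 < kron n lam lam ν := by
  have hT : firstRows ν 4 = ν.rowLen 0 + ν.rowLen 1 + ν.rowLen 2 + ν.rowLen 3 := by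
    simp [firstRows, Finset.sum_range_succ]
  have hcap : ∀ v, cap ν v = capT (ν.rowLen 0) (ν.rowLen 1) (ν.rowLen 2) (ν.rowLen 3) v := by
    intro v
    simp [cap, capT, Finset.sum_range_succ]
  rcases hok with ⟨h3, h4⟩ | h3 | h3 | ⟨h3, h4⟩ | ⟨h3, v, -, u, huv, h4⟩
  · have : ν.card = firstRows ν 4 := card_eq_of_row ν 3 h3
    omega
  · have h4 : firstRows ν 4 ≤ ν.card := by
      rw [← card_top]
      exact Finset.card_filter_le _ _
    omega
  · exact h.kron_pos' hn h1 h2 ν hν hE h3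
  · exact h.kron_pos hn h1 ν hν (Or.inl ⟨h3, by omega⟩)
  · refine h.kron_pos hn h1 ν hν (Or.inr ⟨h3, ?_⟩)
    rw [← hcap, ← hcap, ← hT] at h4
    rcases h4 with ⟨h4, h5⟩ | ⟨h4, h5⟩
    · exact feas_of_interval ν huv h4 h5
    · exact (feas_of_interval ν huv h4 h5).symm

theorem good_check {n a1 a2 m E : ℕ} (h1 : m < a2) (h3 : m + 3 ≤ a1)
    (hd : a1 = a2 + 1 ∨ a1 = a2 + 2) (hn : n = a1 + a2 + m * (m + 1) / 2)
    (hE : n = (m + 2) * (m + 2 + 1) / 2 + E) (hc : check n a1 a2 E) : Good n := by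
  refine good_of_sh1 h1 (by omega) h3 hn fun lam h hl => ?_
  have key : ∀ ν : YoungDiagram, ν.card = n →
      n ≤ phi (ν.rowLen 0) (ν.rowLen 1) (ν.rowLen 2) (ν.rowLen 3) →
      0 < kron n lam lam ν ∨ 0 < kron n lam lam ν.transpose := by
    intro ν hν hphi
    by_contra hk
    rw [not_or] at hk
    have hν' : ν.transpose.card = n := (Saxl.card_transpose ν).trans hν
    have e1 := h.top_le (X := a1 + a2 + 2) hl h1 (by omega) ν hν hk.1
    have e2 := h.top_le (X := a1 + a2 + 2) hl h1 (by omega) ν.transpose hν' hk.2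
    simp only [firstRows, YoungDiagram.rowLen_transpose, Finset.sum_range_succ,
      Finset.sum_range_zero] at e1 e2
    have := ν.rowLen_anti 0 1 (by omega)
    have := ν.rowLen_anti 1 2 (by omega)
    have := ν.rowLen_anti 2 3 (by omega)
    rcases hc (ν.rowLen 0) (by omega) (ν.rowLen 1) (by omega) (ν.rowLen 2) (by omega)
      (ν.rowLen 3) (by omega) with h4 | h4 | h4
    · omega
    · exact hk.1 (h.kron_of_ok hl h1 (by omega) hE ν hν h4)
    · have := ν.colLen_anti 0 1 (by omega)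
      have := ν.colLen_anti 1 2 (by omega)
      have := ν.colLen_anti 2 3 (by omega)
      rcases h4 (ν.colLen 0) (by omega) (ν.colLen 1) (by omega) (ν.colLen 2) (by omega)
        (ν.colLen 3) (by omega) with h5 | h5 | h5
      · have := two_card_le ν
        omega
      · refine hk.2 (h.kron_of_ok hl h1 (by omega) hE ν.transpose hν' ?_)
        simpa only [YoungDiagram.rowLen_transpose] using h5
      · refine h5 ⟨?_, ?_, ?_⟩ <;>
          rw [← YoungDiagram.mem_iff_lt_rowLen, ← YoungDiagram.mem_iff_lt_colLen]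
  intro ν hν
  have h4 := two_card_le ν
  rcases Nat.lt_or_ge (phi (ν.rowLen 0) (ν.rowLen 1) (ν.rowLen 2) (ν.rowLen 3)) n with h5 | h5
  · have h6 := key ν.transpose ((Saxl.card_transpose ν).trans hν) (by
      simp only [YoungDiagram.rowLen_transpose]
      omega)
    rw [YoungDiagram.transpose_transpose] at h6
    exact h6.symm
  · exact key ν hν h5

/-- The numerical conditions for two rows on top of the staircase `m, ..., 1`. -/
def cond (n m a2 d : ℕ) : Prop :=
  m < a2 ∧ d ≤ 1 ∧ m + 2 ≤ a2 + d ∧ n = a2 + 1 + d + a2 + m * (m + 1) / 2 ∧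
    2 * a2 + 4 * d < n ∧ 2 * (2 * a2 + 4 * d) < n + 7 ∧
    2 * (2 * a2 + 4 * d) + ((2 * a2 + 4 * d) / 4 - 4) * ((2 * a2 + 4 * d) / 4 - 4) < n + 16

instance (n m a2 d : ℕ) : Decidable (cond n m a2 d) := by
  unfold cond
  infer_instance

theorem good_cond {n m a2 d : ℕ} (h : cond n m a2 d) : Good n := by
  obtain ⟨h1, hd, h2, h3, h4, h5, h6⟩ := h
  exact good_one (a1 := a2 + 1 + d) (X := 2 * a2 + 4 * d) (P := (2 * a2 + 4 * d) / 4) h1
    (by omega) h3 (by omega) (by omega) h4 h5 h6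

theorem cond_small : ∀ n ≤ 119, 5 ≤ n →
    (∃ m ≤ 13, cond n m ((n - m * (m + 1) / 2 - 1) / 2) ((n - m * (m + 1) / 2 - 1) % 2)) ∨
    n ∈ [6, 7, 9, 11, 13, 15, 16, 18, 20, 21, 24, 26, 28, 33, 35, 45] := by
  decide +kernel

theorem good_small (n : ℕ) (h5 : 5 ≤ n) (h : n ≤ 119) : Good n := by
  rcases cond_small n h h5 with ⟨m, -, hm⟩ | hn
  · exact good_cond hm
  simp only [List.mem_cons, List.not_mem_nil, or_false] at hn
  rcases hn with rfl | rfl | rfl | rfl | rfl | rfl | rfl | rfl | rfl | rfl | rfl | rfl | rfl |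
    rfl | rfl | rfl
  · exact good_check (a1 := 4) (a2 := 2) (m := 0) (E := 3) (by omega) (by omega) (by omega)
      (by omega) (by omega) (by decide +kernel)
  · exact good_check (a1 := 4) (a2 := 2) (m := 1) (E := 1) (by omega) (by omega) (by omega)
      (by omega) (by omega) (by decide +kernel)
  · exact good_check (a1 := 5) (a2 := 3) (m := 1) (E := 3) (by omega) (by omega) (by omega)
      (by omega) (by omega) (by decide +kernel)
  · exact good_check (a1 := 5) (a2 := 3) (m := 2) (E := 1) (by omega) (by omega) (by omega)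
      (by omega) (by omega) (by decide +kernel)
  · exact good_check (a1 := 6) (a2 := 4) (m := 2) (E := 3) (by omega) (by omega) (by omega)
      (by omega) (by omega) (by decide +kernel)
  · exact good_check (a1 := 7) (a2 := 5) (m := 2) (E := 5) (by omega) (by omega) (by omega)
      (by omega) (by omega) (by decide +kernel)
  · exact good_check (a1 := 6) (a2 := 4) (m := 3) (E := 1) (by omega) (by omega) (by omega)
      (by omega) (by omega) (by decide +kernel)
  · exact good_check (a1 := 7) (a2 := 5) (m := 3) (E := 3) (by omega) (by omega) (by omega)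
      (by omega) (by omega) (by decide +kernel)
  · exact good_check (a1 := 8) (a2 := 6) (m := 3) (E := 5) (by omega) (by omega) (by omega)
      (by omega) (by omega) (by decide +kernel)
  · exact good_check (a1 := 8) (a2 := 7) (m := 3) (E := 6) (by omega) (by omega) (by omega)
      (by omega) (by omega) (by decide +kernel)
  · exact good_check (a1 := 8) (a2 := 6) (m := 4) (E := 3) (by omega) (by omega) (by omega)
      (by omega) (by omega) (by decide +kernel)
  · exact good_check (a1 := 9) (a2 := 7) (m := 4) (E := 5) (by omega) (by omega) (by omega)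
      (by omega) (by omega) (by decide +kernel)
  · exact good_check (a1 := 10) (a2 := 8) (m := 4) (E := 7) (by omega) (by omega) (by omega)
      (by omega) (by omega) (by decide +kernel)
  · exact good_check (a1 := 10) (a2 := 8) (m := 5) (E := 5) (by omega) (by omega) (by omega)
      (by omega) (by omega) (by decide +kernel)
  · exact good_check (a1 := 11) (a2 := 9) (m := 5) (E := 7) (by omega) (by omega) (by omega)
      (by omega) (by omega) (by decide +kernel)
  · exact good_check (a1 := 13) (a2 := 11) (m := 6) (E := 9) (by omega) (by omega) (by omega)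
      (by omega) (by omega) (by decide +kernel)

theorem exists_tri (n : ℕ) (hn : 1 ≤ n) :
    ∃ M E : ℕ, 1 ≤ E ∧ E ≤ M + 1 ∧ 2 * n = M * (M + 1) + 2 * E := by
  induction n, hn using Nat.le_induction with
  | base => exact ⟨0, 1, le_rfl, le_rfl, rfl⟩
  | succ n _ ih =>
    obtain ⟨M, E, h1, h2, h3⟩ := ih
    rcases Nat.lt_or_ge E (M + 1) with h4 | h4
    · exact ⟨M, E + 1, by omega, by omega, by omega⟩
    · obtain rfl : E = M + 1 := by omega
      exact ⟨M + 1, 1, le_rfl, by omega, by nlinarith⟩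

theorem good_large (n : ℕ) (h : 121 ≤ n) : Good n := by
  obtain ⟨M, E, h1, h2, h3⟩ := exists_tri n (by omega)
  have hM : 15 ≤ M := by
    by_contra hc
    have : M * (M + 1) ≤ 14 * 15 := Nat.mul_le_mul (by omega) (by omega)
    omega
  obtain ⟨m, rfl⟩ : ∃ m, M = m + 4 := ⟨M - 4, by omega⟩
  have hm : 11 ≤ m := by omega
  have e1 : (m + 4) * (m + 4 + 1) = m * (m + 1) + 8 * m + 20 := by ring
  have e2 : 11 * (m + 1) ≤ m * (m + 1) := Nat.mul_le_mul_right _ hm
  have e3 : 2 ∣ m * (m + 1) := (Nat.even_mul_succ_self m).two_dvd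
  rcases Nat.eq_or_lt_of_le h1 with rfl | hE
  · have e4 : (m + 2) * (m + 2 + 1) = m * (m + 1) + 4 * m + 6 := by ring
    refine good_one (a1 := m + 5) (a2 := m + 3) (m := m + 2) (X := 2 * m + 10)
      (P := (m + 5) / 2) (by omega) (by omega) (by omega) (by omega) (by omega) (by omega)
      (by omega) ?_
    obtain ⟨k, hk⟩ : ∃ k, (m + 5) / 2 - 4 = k := ⟨_, rfl⟩
    have hk' : 2 * k ≤ m := by omega
    rw [hk]
    nlinarith
  · set s := 4 * m + 10 + E with hs
    refine good_two (b := (s + 1) / 4 + 1) (a1 := (s - 2 * ((s + 1) / 4 + 1) - 1) / 2 + 1)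
      (a2 := (s - 2 * ((s + 1) / 4 + 1) - 2) / 2) (m := m) (X := s + 5) (P := (s + 5) / 8)
      (by omega) (by omega) (by omega) (by omega) (by omega) (by omega) (by omega) (by omega)
      (by omega) ?_ ?_
    · nlinarith
    · obtain ⟨k, hk⟩ : ∃ k, (s + 5) / 8 - 8 = k := ⟨_, rfl⟩
      rw [hk]
      rcases Nat.eq_zero_or_pos k with rfl | hk0
      · omega
      · have hk' : 8 * k + 64 ≤ s + 5 := by omega
        have f1 : 8 * k * k ≤ 5 * m * k := Nat.mul_le_mul_right k (by omega)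
        have f2 : (8 * k + 44) * m ≤ 5 * m * m := Nat.mul_le_mul_right m (by omega)
        have g1 : 8 * k * k = 8 * (k * k) := by ring
        have g2 : 5 * m * k = 5 * (k * m) := by ring
        have g3 : (8 * k + 44) * m = 8 * (k * m) + 44 * m := by ring
        have g4 : 5 * m * m = 5 * (m * m) := by ring
        have g5 : m * (m + 1) = m * m + m := by ring
        omega

/-- **Covering theorem.** -/
theorem good_all (n : ℕ) (h : 5 ≤ n) : Good n := by
  rcases Nat.lt_or_ge n 120 with h1 | h1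
  · exact good_small n h (by omega)
  rcases Nat.eq_or_lt_of_le h1 with rfl | h2
  · exact good_two (b := 17) (a1 := 16) (a2 := 14) (m := 10) (X := 67) (P := 8) (by omega)
      (by omega) (by omega) (by omega) (by omega) (by omega) (by omega) (by omega) (by omega)
      (by omega) (by omega)
  · exact good_large n h2

end Vale.Agent.N197
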