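import Vale.Agent.N197.Size

/-!
# Positivity of Kronecker coefficients for two or four rows on top of a staircase
-/

namespace Vale.Agent.N197

open Equiv Finset Vale.Agent.P197 Vale.Agent.P197.H369

noncomputable section

theorem kron_of_occ {n : ℕ} {lam nu : YoungDiagram} {r c c' : Fin n → ℕ}
    (h1 : IsLabel lam.cells r c) (h2 : IsLabel lam.cells r c') (h : Occ c c' r nu) :
    0 < kron n lam lam nu := by
  have key : ∀ c : Fin n → ℕ, IsLabel lam.cells r c → polyt c r ∈ spechtSub n lam :=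
    fun c hc => polyt_mem_spechtSub lam r c (fun x => hc.mem x) hc.inj
      fun a b hab => hc.surj (a, b) hab
  obtain ⟨b, rl, cl, hl, hocc⟩ := h
  obtain ⟨f, hf, -⟩ := exists_of_occ ⟨_, key c h1⟩ ⟨_, key c' h2⟩ b rl cl hl hocc
  exact kron_pos_of_exists ⟨f, hf⟩

theorem exists_lab (lam : YoungDiagram) {n : ℕ} (hn : lam.card = n) :
    ∃ r i j : Fin n → ℕ, IsLab lam.rowLen r i j := by
  have hcard : Fintype.card lam.cells = n := (Fintype.card_coe _).trans hn
  let t : Fin n ≃ lam.cells := (Fintype.equivFinOfCardEq hcard).symm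
  have hl := H328.isLabel_of_equiv t
  refine ⟨fun x => (t x).1.1, fun x => lam.rowLen (t x).1.1 - 1 - (t x).1.2,
    fun x => (t x).1.2, ?_, hl.inj, ?_⟩
  · intro x
    have h1 : ((t x).1.1, (t x).1.2) ∈ lam := (YoungDiagram.mem_cells _).1 (t x).2
    have := YoungDiagram.mem_iff_lt_rowLen.1 h1
    omega
  · intro a b hab
    exact hl.surj (a, b) ((YoungDiagram.mem_cells _).2 (YoungDiagram.mem_iff_lt_rowLen.2 hab))

theorem isLabel_of {X : Type} {lam : YoungDiagram} {r c : X → ℕ}
    (h1 : ∀ x, c x < lam.rowLen (r x)) (h2 : ∀ x y, r x = r y → c x = c y → x = y)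
    (h3 : ∀ a b, b < lam.rowLen a → ∃ x, r x = a ∧ c x = b) : IsLabel lam.cells r c :=
  ⟨fun x => (YoungDiagram.mem_cells _).2 (YoungDiagram.mem_iff_lt_rowLen.2 (h1 x)), h2,
    fun d hd => h3 d.1 d.2 (YoungDiagram.mem_iff_lt_rowLen.1 ((YoungDiagram.mem_cells _).1 hd))⟩

theorem label_j {X : Type} {lam : YoungDiagram} {r i j : X → ℕ} (h : IsLab lam.rowLen r i j) :
    IsLabel lam.cells r j :=
  isLabel_of (fun x => by have := h.eq x; omega) h.inj h.surj

theorem label_i {X : Type} {lam : YoungDiagram} {r i j : X → ℕ} (h : IsLab lam.rowLen r i j) :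
    IsLabel lam.cells r i := by
  refine isLabel_of (fun x => by have := h.eq x; omega) ?_ ?_
  · intro x y h1 h2
    have h3 := h.eq x
    have h4 := h.eq y
    rw [h1] at h3
    exact h.inj x y h1 (by omega)
  · intro a b hab
    obtain ⟨x, hx1, hx2⟩ := h.surj a (lam.rowLen a - 1 - b) (by omega)
    refine ⟨x, hx1, ?_⟩
    have h3 := h.eq x
    rw [hx1, hx2] at h3
    omega

theorem kron_of_lab {n : ℕ} {lam nu : YoungDiagram} (hn : lam.card = n)
    (h : ∀ r i j : Fin n → ℕ, IsLab lam.rowLen r i j → Occ j i r nu) : 0 < kron n lam lam nu := by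
  obtain ⟨r, i, j, hl⟩ := exists_lab lam hn
  exact kron_of_occ (label_j hl) (label_i hl) (h r i j hl)

theorem card_of_tail (lam : YoungDiagram) (k m : ℕ) (h : ∀ a, lam.rowLen (a + k) = m - a) :
    lam.card = firstRows lam k + m * (m + 1) / 2 := by
  obtain ⟨r, i, j, hl⟩ := exists_lab lam rfl
  have h1 := hl.card_compl k
  have h2 := card_of_stair ((hl.rest k (fun x => r x < k) (fun x => Iff.rfl)).stair h).1
  rw [Fintype.card_fin] at h1
  unfold firstRows
  omega

/-- Two rows `a1`, `a2` on top of the staircase `m, ..., 1`. -/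
structure Sh1 (lam : YoungDiagram) (a1 a2 m : ℕ) : Prop where
  row0 : lam.rowLen 0 = a1
  row1 : lam.rowLen 1 = a2
  tail : ∀ a, lam.rowLen (a + 2) = m - a

/-- Four rows `b + 1`, `b`, `a1`, `a2` on top of the staircase `m, ..., 1`. -/
structure Sh2 (lam : YoungDiagram) (b a1 a2 m : ℕ) : Prop where
  row0 : lam.rowLen 0 = b + 1
  row1 : lam.rowLen 1 = b
  row2 : lam.rowLen 2 = a1
  row3 : lam.rowLen 3 = a2
  tail : ∀ a, lam.rowLen (a + 4) = m - a

theorem exists_sh1 {a1 a2 m : ℕ} (h1 : a2 ≤ a1) (h2 : m ≤ a2) : ∃ lam, Sh1 lam a1 a2 m := by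
  let A : ℕ → ℕ := fun a => if a = 0 then a1 else if a = 1 then a2 else m + 2 - a
  have hA : Antitone A := by
    intro a b hab
    simp only [A]
    split_ifs <;> omega
  have hN : ∀ a, m + 2 ≤ a → A a = 0 := by
    intro a ha
    simp only [A]
    split_ifs <;> omega
  refine ⟨ofFun A hA (m + 2), ?_, ?_, fun a => ?_⟩ <;> rw [rowLen_ofFun hN] <;> simp [A]

theorem exists_sh2 {b a1 a2 m : ℕ} (h0 : a1 ≤ b) (h1 : a2 ≤ a1) (h2 : m ≤ a2) :
    ∃ lam, Sh2 lam b a1 a2 m := by
  let A : ℕ → ℕ := fun a => if a = 0 then b + 1 else if a = 1 then b else if a = 2 then a1 else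
    if a = 3 then a2 else m + 4 - a
  have hA : Antitone A := by
    intro a b hab
    simp only [A]
    split_ifs <;> omega
  have hN : ∀ a, m + 4 ≤ a → A a = 0 := by
    intro a ha
    simp only [A]
    split_ifs <;> omega
  refine ⟨ofFun A hA (m + 4), ?_, ?_, ?_, ?_, fun a => ?_⟩ <;> rw [rowLen_ofFun hN] <;>
    simp [A]

theorem colLen_le_of_tail (lam : YoungDiagram) (k m : ℕ) (h : ∀ a, lam.rowLen (a + k) = m - a) :
    lam.colLen 0 ≤ m + k := by
  by_contra hc
  have h1 := YoungDiagram.mem_iff_lt_rowLen.1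
    (YoungDiagram.mem_iff_lt_colLen.2 (show m + k < lam.colLen 0 by omega))
  rw [h m] at h1
  omega

theorem Sh1.card {lam : YoungDiagram} {a1 a2 m : ℕ} (h : Sh1 lam a1 a2 m) :
    lam.card = a1 + a2 + m * (m + 1) / 2 := by
  rw [card_of_tail lam 2 m h.tail, ← h.row0, ← h.row1]
  simp [firstRows, Finset.sum_range_succ]

theorem Sh2.card {lam : YoungDiagram} {b a1 a2 m : ℕ} (h : Sh2 lam b a1 a2 m) :
    lam.card = 2 * b + 1 + a1 + a2 + m * (m + 1) / 2 := by
  rw [card_of_tail lam 4 m h.tail]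
  simp only [firstRows, Finset.sum_range_succ, Finset.sum_range_zero, h.row0, h.row1, h.row2, h.row3]
  omega

theorem occ_two {X : Type} [Fintype X] [DecidableEq X] {A : ℕ → ℕ} {m : ℕ} (h1 : m < A 1)
    (htail : ∀ a, A (a + 2) = m - a) {r i j : X → ℕ} (h : IsLab A r i j) (ν : YoungDiagram)
    (hν : ν.card = Fintype.card X)
    (hF : (A 0 = A 1 + 1 ∧ A 0 + A 1 ≤ firstRows ν 4) ∨
      (A 0 = A 1 + 2 ∧ Feas ν (2 * ((A 0 + 1) / 2) - 1) (2 * (A 0 / 2) - 1))) : Occ j i r ν := by
  rcases hF with ⟨h0, hT⟩ | ⟨h0, hF⟩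
  · refine occ_pairs m 1 A ⟨fun a ha => absurd ha (by omega), fun t ht => ?_, fun a => ?_⟩
      X r i j h ν hν fun t ht => ?_
    · obtain rfl : t = 0 := by omega
      have := htail 0
      exact ⟨h0, by simp only [zero_add, mul_zero] at this ⊢; omega⟩
    · rw [← htail a]
      congr 1
      omega
    · have : t = 0 ∨ t = 1 := by omega
      rcases this with rfl | rfl
      · simp
      · simpa [firstRows, Finset.sum_range_succ] using hT
  · exact occ_block h0 h1 htail h ν hν hF

theorem Sh1.kron_pos {n : ℕ} {lam : YoungDiagram} {a1 a2 m : ℕ} (h : Sh1 lam a1 a2 m)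
    (hn : lam.card = n) (h1 : m < a2) (ν : YoungDiagram) (hν : ν.card = n)
    (hF : (a1 = a2 + 1 ∧ a1 + a2 ≤ firstRows ν 4) ∨
      (a1 = a2 + 2 ∧ Feas ν (2 * ((a1 + 1) / 2) - 1) (2 * (a1 / 2) - 1))) :
    0 < kron n lam lam ν := by
  refine kron_of_lab hn fun r i j hl => occ_two (m := m) (by rw [h.row1]; exact h1) h.tail hl ν
    (by rw [hν, Fintype.card_fin]) ?_
  rw [h.row0, h.row1]
  exact hF

theorem Sh2.kron_pos {n : ℕ} {lam : YoungDiagram} {b a1 a2 m : ℕ} (h : Sh2 lam b a1 a2 m)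
    (hn : lam.card = n) (h0 : a1 < b) (h1 : m < a2) (hd : a1 = a2 + 1 ∨ a1 = a2 + 2)
    (ν : YoungDiagram) (hν : ν.card = n) (hT : 2 * b + 1 ≤ firstRows ν 4)
    (hT' : 2 * b + 1 + a1 + a2 + 3 ≤ firstRows ν 8) : 0 < kron n lam lam ν := by
  refine kron_of_lab hn fun r i j hl => ?_
  obtain ⟨ν2, q, hle, hcol, hcard2, -, hlow, hhigh⟩ := exists_strip ν 4 (2 * b + 1) (by omega) hT
  have hr0 := h.row0
  have hr1 := h.row1
  have hr2 := h.row2
  have hr3 := h.row3
  refine occ_pair_step (by omega) (fun a ha => ?_) hl ν ν2 hle hcol (by omega) ?_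
  · have := lam.rowLen_anti 2 a ha
    omega
  · have hT2 : a1 + a2 + 3 ≤ firstRows ν2 4 := by
      unfold firstRows at hT hT' ⊢
      rcases Nat.lt_or_ge q 4 with hq | hq
      · have := hhigh 4 hq
        norm_num at this
        omega
      · have := hlow 4 hq
        omega
    refine occ_two (A := fun a => lam.rowLen (a + 2)) (m := m) (by simp only [hr3]; exact h1)
      (fun a => h.tail a) (hl.rest 2 _ fun x => Iff.rfl) ν2 ?_ ?_
    · have h2 := hl.card_compl 2
      simp only [Finset.sum_range_succ, Finset.sum_range_zero, Fintype.card_fin] at h2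
      omega
    · simp only [zero_add, hr2, hr3]
      rcases hd with hd | hd
      · exact Or.inl ⟨hd, by omega⟩
      · exact Or.inr ⟨hd, feas_of_le ν2 (by omega)⟩

/-- Adding columns to a staircase and a horizontal strip to the first row. -/
theorem Sh1.kron_pos' {n : ℕ} {lam : YoungDiagram} {a1 a2 m : ℕ} (h : Sh1 lam a1 a2 m)
    (hn : lam.card = n) (h1 : m < a2) (h2 : a2 < a1) (ν : YoungDiagram) (hν : ν.card = n)
    {E : ℕ} (hE : n = (m + 2) * (m + 2 + 1) / 2 + E) (hr : ν.rowLen 1 + E ≤ ν.rowLen 0) :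
    0 < kron n lam lam ν := by
  classical
  obtain ⟨r, i, j, hl⟩ := exists_lab lam hn
  have hrow : ∀ x, (r x = 0 ∧ j x < a1) ∨ (r x = 1 ∧ j x < a2) ∨
      (2 ≤ r x ∧ r x + j x < m + 2) := by
    intro x
    have h3 := hl.eq x
    rcases Nat.lt_or_ge (r x) 2 with h4 | h4
    · have : r x = 0 ∨ r x = 1 := by omega
      rcases this with h5 | h5
      · rw [h5, h.row0] at h3
        omega
      · rw [h5, h.row1] at h3
        omega
    · have h5 := h.tail (r x - 2)
      rw [Nat.sub_add_cancel h4] at h5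
      omega
  have hcell : ∀ a b, b < lam.rowLen a ↔
      (a = 0 ∧ b < a1) ∨ (a = 1 ∧ b < a2) ∨ (2 ≤ a ∧ a + b < m + 2) := by
    intro a b
    rcases Nat.lt_or_ge a 2 with h4 | h4
    · have : a = 0 ∨ a = 1 := by omega
      rcases this with rfl | rfl
      · rw [h.row0]
        omega
      · rw [h.row1]
        omega
    · have h5 := h.tail (a - 2)
      rw [Nat.sub_add_cancel h4] at h5
      omega
  let j1 : Fin n → ℕ := fun x => min (j x) (m + 1)
  let i1 : Fin n → ℕ := fun x => m + 1 - r x - j1 x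
  let c' : Fin n → ℕ := fun x =>
    if j x ≤ m ∨ j x = a2 then (if i1 x = m + 1 then a2 else i1 x) else j x
  have hl' : IsLabel lam.cells r c' := by
    refine isLabel_of (fun x => ?_) (fun x y e1 e2 => ?_) (fun a b hab => ?_)
    · rw [hcell]
      have := hrow x
      simp only [c', i1, j1]
      split_ifs <;> omega
    · refine hl.inj x y e1 ?_
      have := hrow x
      have := hrow y
      simp only [c', i1, j1] at e2
      split_ifs at e2 <;> omega
    · obtain ⟨x, hx1, hx2⟩ := hl.surj a (if b ≤ m then (if a + b = 0 then a2 else m + 1 - a - b)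
        else if b = a2 then 0 else b) (by
          rw [hcell] at hab ⊢
          split_ifs <;> omega)
      refine ⟨x, hx1, ?_⟩
      rw [hcell] at hab
      simp only [c', i1, j1]
      split_ifs at hx2 ⊢ <;> omega
  refine kron_of_occ (label_j hl) hl' ((occ_iff _ _ _ _).2 ?_)
  let p : Fin n → Prop := fun x => j x ≤ m ∨ j x = a2
  have hs : IsStair (m + 2) (resW p i1) (resW p j1) := by
    refine ⟨fun x => ?_, fun x y e1 e2 => ?_, fun a b hab => ?_⟩
    · have := hrow x.1
      have : j x.1 ≤ m ∨ j x.1 = a2 := x.2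
      simp only [resW, i1, j1]
      omega
    · have := hrow x.1
      have := hrow y.1
      have : j x.1 ≤ m ∨ j x.1 = a2 := x.2
      have : j y.1 ≤ m ∨ j y.1 = a2 := y.2
      simp only [resW, i1, j1] at e1 e2
      exact Subtype.ext (hl.inj _ _ (by omega) (by omega))
    · obtain ⟨x, hx1, hx2⟩ := hl.surj (m + 1 - a - b) (if b ≤ m then b else a2) (by
        rw [hcell]
        split_ifs <;> omega)
      refine ⟨⟨x, ?_⟩, ?_, ?_⟩ <;> simp only [p, resW, i1, j1] <;> split_ifs at hx2 <;> omega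
  let S1 : Finset (ℕ × ℕ) := ν.cells.filter fun d => d.2 + E < ν.rowLen 0
  let S2 : Finset (ℕ × ℕ) := ν.cells.filter fun d => ¬ d.2 + E < ν.rowLen 0
  have hS2 : ∀ d, d ∈ S2 ↔ d.1 = 0 ∧ ν.rowLen 0 ≤ d.2 + E ∧ d.2 < ν.rowLen 0 := by
    rintro ⟨a, b⟩
    rw [Finset.mem_filter, YoungDiagram.mem_cells, YoungDiagram.mem_iff_lt_rowLen]
    rcases Nat.eq_zero_or_pos a with rfl | ha
    · omega
    · have := ν.rowLen_anti 1 a ha
      omega
  have hc2 : S2.card = E := by
    have e : S2 = (Finset.Ico (ν.rowLen 0 - E) (ν.rowLen 0)).image fun b => (0, b) := by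
      ext ⟨a, b⟩
      simp only [hS2, Finset.mem_image, Finset.mem_Ico, Prod.mk.injEq]
      constructor
      · rintro ⟨rfl, h4, h5⟩
        exact ⟨b, ⟨by omega, h5⟩, rfl, rfl⟩
      · rintro ⟨b', ⟨h4, h5⟩, rfl, rfl⟩
        exact ⟨rfl, by omega, h5⟩
    rw [e, Finset.card_image_of_injective _ (fun a b hab => by simpa using hab), Nat.card_Ico]
    omega
  have hc12 : S1.card + S2.card = n := by
    rw [← hν]
    exact Finset.card_filter_add_card_filter_not _
  have hU : S1 ∪ S2 = ν.cells := Finset.filter_union_filter_not_eq _ _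
  rw [← hU]
  refine skewOcc_prod p j c' r ?_ ?_ ?_ ?_ ?_
  · intro x y e
    simp only [p, e]
  · intro x y e
    have := hrow x
    have := hrow y
    simp only [c', i1, j1] at e
    simp only [p]
    split_ifs at e <;> omega
  · intro d hd d' hd' e
    have h3 := (Finset.mem_filter.1 hd).2
    have h4 := (Finset.mem_filter.1 hd').2
    rw [e] at h3
    exact h4 h3
  · have hr0 : resW p r = r0 (m + 2) (resW p i1) (resW p j1) := by
      funext x
      have := hrow x.1
      have : j x.1 ≤ m ∨ j x.1 = a2 := x.2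
      simp only [resW, r0, i1, j1]
      omega
    rw [hr0]
    refine skewOcc_congr (d := resW p j1) (d' := resW p i1) ?_ ?_ (stair_any hs S1
      (fun c => if c + E < ν.rowLen 0 then ν.colLen c else 0) ?_ (by omega))
    · intro x y
      have : j x.1 ≤ m ∨ j x.1 = a2 := x.2
      have : j y.1 ≤ m ∨ j y.1 = a2 := y.2
      simp only [resW, j1]
      omega
    · intro x y
      have hx : j x.1 ≤ m ∨ j x.1 = a2 := x.2
      have hy : j y.1 ≤ m ∨ j y.1 = a2 := y.2
      simp only [resW, c', if_pos hx, if_pos hy]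
      have : i1 x.1 ≤ m + 1 := by simp only [i1]; omega
      have : i1 y.1 ≤ m + 1 := by simp only [i1]; omega
      split_ifs <;> omega
    · rintro ⟨a, b⟩
      rw [Finset.mem_filter, YoungDiagram.mem_cells, YoungDiagram.mem_iff_lt_colLen]
      simp only
      split_ifs <;> omega
  · have e : resW (fun x => ¬ p x) c' = resW (fun x => ¬ p x) j := by
      funext x
      exact if_neg x.2
    rw [e]
    refine skewOcc_diag _ _ (fun x y e1 e2 => Subtype.ext (hl.inj _ _ e1 e2)) S2 ?_ ?_
    · have h3 := card_of_stair hs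
      have h4 := Fintype.card_subtype_compl p
      rw [Fintype.card_fin] at h4
      omega
    · intro d hd d' hd' e
      rw [hS2] at hd hd'
      exact Prod.ext (hd.1.trans hd'.1.symm) e

end

end Vale.Agent.N197
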