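import Vale.Agent.N197.Cover
import Vale.Agent.N197.Alt

/-!
# Universal tensor squares for all alternating groups
-/

namespace Vale.Agent.N197

open Vale.Agent.P197

/-- (1) For every `n ≥ 5` there is a partition `λ` of `n`, with first row
longer than the first column, such that for every partition `ν` of `n` one of the Kronecker
coefficients `g(λ, λ, ν)`, `g(λ, λ, ν')` is positive. (2) For every `n ≥ 5` the alternating group
of degree `n` has an irreducible complex representation whose tensor square contains every
irreducible complex representation. -/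
theorem oldAlternating :
    (∀ n : ℕ, 5 ≤ n → ∃ lam : YoungDiagram, lam.card = n ∧ lam.colLen 0 < lam.rowLen 0 ∧
      ∀ ν : YoungDiagram, ν.card = n →
        0 < kron n lam lam ν ∨ 0 < kron n lam lam ν.transpose) ∧
    ∀ n : ℕ, 5 ≤ n → ∃ (V : Type) (_ : AddCommGroup V) (_ : Module ℂ V)
      (ρ : Representation ℂ (alternatingGroup (Fin n)) V), ρ.IsIrreducible ∧
      ∀ (W : Type) [AddCommGroup W] [Module ℂ W]
        (σ : Representation ℂ (alternatingGroup (Fin n)) W), σ.IsIrreducible →
        ∃ f : σ.IntertwiningMap (ρ.tprod ρ), Function.Injective f := by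
  refine ⟨fun n hn => N197.good_all n hn, fun n hn => ?_⟩
  obtain ⟨lam, h1, h2, h3⟩ := N197.good_all n hn
  exact ⟨spechtSub n lam, inferInstance, inferInstance, N197.altSpecht n lam,
    N197.altSpecht_irreducible lam h1 h2, fun W _ _ σ hσ => N197.alt_universal lam h3 W σ hσ⟩

end Vale.Agent.N197
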