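import Vale.Agent.P197.H369.Main
import Vale.Agent.P197.H328.Irr
import Mathlib.RingTheory.MvPolynomial.Basic

/-!
# The occurrence statement as nonvanishing of a polynomial, and its product property
-/

namespace Vale.Agent.N197

open Equiv Finset Vale.Agent.P197 Vale.Agent.P197.H369

noncomputable section

/-- Polynomials in variables indexed by triples of letters. -/
abbrev PR : Type := MvPolynomial (ℕ × ℕ × ℕ) ℂ

variable {X : Type} [Fintype X] [DecidableEq X]

/-- The monomial of three words. -/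
def mon (a b c : X → ℕ) : PR := ∏ x, MvPolynomial.X (a x, b x, c x)

/-- The exponent vector of the monomial of three words. -/
def dg (a b c : X → ℕ) : (ℕ × ℕ × ℕ) →₀ ℕ := ∑ x, Finsupp.single (a x, b x, c x) 1

omit [DecidableEq X] in
theorem mon_eq (a b c : X → ℕ) : mon a b c = MvPolynomial.monomial (dg a b c) 1 := by
  unfold mon dg
  rw [MvPolynomial.monomial_sum_one]
  rfl

omit [DecidableEq X] in
theorem mon_comp (a b c : X → ℕ) (g : Perm X) : mon (a ∘ g) (b ∘ g) (c ∘ g) = mon a b c :=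
  Fintype.prod_equiv g _ _ fun _ => rfl

omit [DecidableEq X] in
theorem dg_apply (a b c : X → ℕ) (k : ℕ × ℕ × ℕ) :
    dg a b c k = (univ.filter fun x => (a x, b x, c x) = k).card := by
  unfold dg
  rw [Finsupp.finsetSum_apply, Finset.card_filter]
  exact Finset.sum_congr rfl fun x _ => Finsupp.single_apply

/-- The polynomial attached to three tableaux. -/
def hw (c1 r1 c2 r2 c3 r3 : X → ℕ) : PR :=
  ∑ π ∈ stab c1, ∑ σ ∈ stab c2, ∑ τ ∈ stab c3,
    (((Perm.sign π : ℤ) : ℂ) * (((Perm.sign σ : ℤ) : ℂ) * ((Perm.sign τ : ℤ) : ℂ))) •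
      mon (r1 ∘ π) (r2 ∘ ⇑(σ⁻¹ : Perm X)) (r3 ∘ ⇑(τ⁻¹ : Perm X))

theorem sum_eq_map (L : PR →ₗ[ℂ] ℂ) (rl cl c c' r r' : X → ℕ) (y : (X → ℕ) → (X → ℕ) → ℂ)
    (hy : ∀ u u', y u u' = L (mon rl u u')) :
    ∑ π ∈ stab cl, ((Perm.sign π : ℤ) : ℂ) * Fn (kform y) (polyt c r) (polyt c' r') π =
      L (hw cl rl c r c' r') := by
  unfold hw
  rw [map_sum]
  refine Finset.sum_congr rfl fun π _ => ?_
  rw [Quat.Fn_kform, map_sum, Finset.mul_sum]
  refine Finset.sum_congr rfl fun σ _ => ?_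
  rw [map_sum, Finset.mul_sum]
  refine Finset.sum_congr rfl fun τ _ => ?_
  rw [map_smul, hy, smul_eq_mul, ← mon_comp rl _ _ π]
  have e : ∀ u : X → ℕ, (u ∘ ⇑(π⁻¹ : Perm X)) ∘ ⇑π = u := by
    intro u
    funext x
    simp
  rw [e, e]
  ring

/-- A row-invariant kernel factors through the monomials. -/
theorem exists_linear (rl : X → ℕ) (y : (X → ℕ) → (X → ℕ) → ℂ)
    (hy : ∀ ρ ∈ stab rl, ∀ u u' : X → ℕ, y (u ∘ ρ) (u' ∘ ρ) = y u u') :
    ∃ L : PR →ₗ[ℂ] ℂ, ∀ u u', y u u' = L (mon rl u u') := by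
  classical
  let val : ((ℕ × ℕ × ℕ) →₀ ℕ) → ℂ := fun d =>
    if h : ∃ p : (X → ℕ) × (X → ℕ), dg rl p.1 p.2 = d then y h.choose.1 h.choose.2 else 0
  refine ⟨(MvPolynomial.basisMonomials (ℕ × ℕ × ℕ) ℂ).constr ℂ val, fun u u' => ?_⟩
  have h1 : mon rl u u' = MvPolynomial.basisMonomials (ℕ × ℕ × ℕ) ℂ (dg rl u u') := by
    rw [mon_eq, MvPolynomial.coe_basisMonomials]
  have hex : ∃ p : (X → ℕ) × (X → ℕ), dg rl p.1 p.2 = dg rl u u' := ⟨(u, u'), rfl⟩
  rw [h1, Module.Basis.constr_basis]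
  have h2 : val (dg rl u u') = y hex.choose.1 hex.choose.2 := dif_pos hex
  rw [h2]
  have h3 := hex.choose_spec
  obtain ⟨π, hπ⟩ := H328.exists_perm_of_fiber
    (fun x => (rl x, hex.choose.1 x, hex.choose.2 x)) (fun x => (rl x, u x, u' x)) (by
      intro k
      rw [← dg_apply, ← dg_apply, h3])
  have h4 : π ∈ stab rl := mem_stab.2 fun x => (Prod.mk.inj (hπ x)).1
  have h5 : u ∘ π = hex.choose.1 := funext fun x => (Prod.mk.inj (Prod.mk.inj (hπ x)).2).1
  have h6 : u' ∘ π = hex.choose.2 := funext fun x => (Prod.mk.inj (Prod.mk.inj (hπ x)).2).2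
  rw [← hy π h4 u u', h5, h6]

theorem skewOcc_iff (c c' r : X → ℕ) (S : Finset (ℕ × ℕ)) :
    SkewOcc c c' r S ↔ ∃ rl cl : X → ℕ, IsLabel S rl cl ∧ hw cl rl c r c' r ≠ 0 := by
  constructor
  · rintro ⟨rl, cl, hl, y, hy, hne⟩
    refine ⟨rl, cl, hl, fun h0 => hne ?_⟩
    obtain ⟨L, hL⟩ := exists_linear rl y hy
    rw [sum_eq_map L rl cl c c' r r y hL, h0, map_zero]
  · rintro ⟨rl, cl, hl, hne⟩
    obtain ⟨d, hd⟩ := MvPolynomial.ne_zero_iff.1 hne
    refine ⟨rl, cl, hl, fun u u' => MvPolynomial.lcoeff ℂ d (mon rl u u'), ?_, ?_⟩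
    · intro ρ hρ u u'
      have h1 : rl ∘ ⇑ρ = rl := funext (mem_stab.1 hρ)
      have h2 := mon_comp rl u u' ρ
      rw [h1] at h2
      simp only [h2]
    · rw [sum_eq_map (MvPolynomial.lcoeff ℂ d) rl cl c c' r r _ (fun _ _ => rfl)]
      exact hd

theorem occ_of_kernel (rl cl : X → ℕ) (v w : WM X) (y : (X → ℕ) → (X → ℕ) → ℂ)
    (hy : ∀ ρ ∈ stab rl, ∀ u u' : X → ℕ, y (u ∘ ρ) (u' ∘ ρ) = y u u')
    (hne : ∑ π ∈ stab cl, ((Perm.sign π : ℤ) : ℂ) * Fn (kform y) v w π ≠ 0) :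
    occ rl cl (Fn (kform y) v w) ≠ 0 := by
  unfold occ
  have e : ∀ ρ ∈ stab rl, ∑ π ∈ stab cl, ((Perm.sign π : ℤ) : ℂ) * Fn (kform y) v w (ρ * π) =
      ∑ π ∈ stab cl, ((Perm.sign π : ℤ) : ℂ) * Fn (kform y) v w π := by
    intro ρ hρ
    refine Finset.sum_congr rfl fun π _ => ?_
    congr 1
    simp only [Fn, map_mul, Module.End.mul_apply]
    exact kform_invariant y ρ (hy ρ hρ) _ _
  rw [Finset.sum_congr rfl e, Finset.sum_const, nsmul_eq_mul]
  exact mul_ne_zero (H328.card_stab_ne_zero rl) hne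

theorem occ_iff (c c' r : X → ℕ) (ν : YoungDiagram) : Occ c c' r ν ↔ SkewOcc c c' r ν.cells := by
  constructor
  · rintro ⟨b, rl, cl, hl, hne⟩
    let y : (X → ℕ) → (X → ℕ) → ℂ := fun u u' => ∑ ρ ∈ stab rl,
      b (wordRep X ρ (Finsupp.single u 1)) (wordRep X ρ (Finsupp.single u' 1))
    have hk : ∀ v w : WM X, kform y v w = ∑ ρ ∈ stab rl, b (wordRep X ρ v) (wordRep X ρ w) := by
      intro v w
      induction v using Finsupp.induction_linear with
      | zero => simp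
      | add v v' h h' => simp only [map_add, LinearMap.add_apply, h, h', Finset.sum_add_distrib]
      | single u a =>
        induction w using Finsupp.induction_linear with
        | zero => simp
        | add w w' h h' => simp only [map_add, h, h', Finset.sum_add_distrib]
        | single u' a' =>
          rw [kform_single, Finset.mul_sum, Finset.mul_sum]
          refine Finset.sum_congr rfl fun ρ _ => ?_
          have e : ∀ (u : X → ℕ) (a : ℂ), Finsupp.single u a = a • Finsupp.single u (1 : ℂ) := by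
            intro u a
            simp
          rw [e u a, e u' a']
          simp only [map_smul, LinearMap.smul_apply, smul_eq_mul]
          ring
    refine ⟨rl, cl, hl, y, ?_, ?_⟩
    · intro ρ hρ u u'
      have e : ∀ u : X → ℕ, Finsupp.single (u ∘ ⇑ρ) (1 : ℂ) =
          wordRep X ρ⁻¹ (Finsupp.single u 1) := by
        intro u
        rw [wordRep_single, inv_inv]
      simp only [y]
      rw [e, e]
      refine Finset.sum_bij' (fun g _ => g * ρ⁻¹) (fun g _ => g * ρ) ?_ ?_ ?_ ?_ ?_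
      · intro g hg
        exact Conj.mul_mem_stab hg (Conj.inv_mem_stab hρ)
      · intro g hg
        exact Conj.mul_mem_stab hg hρ
      · intro g _
        simp
      · intro g _
        simp
      · intro g _
        simp only [map_mul, Module.End.mul_apply]
    · intro h0
      apply hne
      rw [← h0]
      unfold occ
      rw [Finset.sum_comm]
      refine Finset.sum_congr rfl fun π _ => ?_
      unfold Fn
      rw [hk, Finset.mul_sum]
      refine Finset.sum_congr rfl fun ρ _ => ?_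
      simp only [map_mul, Module.End.mul_apply]
  · rintro ⟨rl, cl, hl, y, hy, hne⟩
    exact ⟨kform y, rl, cl, hl, occ_of_kernel rl cl _ _ y hy hne⟩

theorem sum_stab_split {M : Type} [AddCommMonoid M] (p : X → Prop) [DecidablePred p]
    (c : X → ℕ) (hc : ∀ x y, c x = c y → (p x ↔ p y)) (F : Perm X → M) :
    ∑ g ∈ stab c, F g = ∑ a ∈ stab (resW p c), ∑ b ∈ stab (resW (fun x => ¬ p x) c),
      F (Perm.subtypeCongr a b) := by
  have h1 := sum_preserving p c F
  have h2 : univ.filter (fun g : Perm X => (∀ x, c (g x) = c x) ∧ ∀ x, p (g x) ↔ p x) =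
      stab c := by
    ext g
    rw [mem_stab, Finset.mem_filter]
    exact ⟨fun h => h.2.1, fun h => ⟨Finset.mem_univ _, h, fun x => hc _ _ (h x)⟩⟩
  rw [← h2, h1]
  rfl

omit [DecidableEq X] in
theorem mon_split (p : X → Prop) [DecidablePred p] (a b c : X → ℕ) :
    mon a b c = mon (resW p a) (resW p b) (resW p c) *
      mon (resW (fun x => ¬ p x) a) (resW (fun x => ¬ p x) b) (resW (fun x => ¬ p x) c) :=
  (Fintype.prod_subtype_mul_prod_subtype p _).symm

omit [Fintype X] [DecidableEq X] in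
theorem resW_left (p : X → Prop) [DecidablePred p] (r : X → ℕ) (a : Perm {x // p x})
    (b : Perm {x // ¬ p x}) : resW p (r ∘ ⇑(Perm.subtypeCongr a b)) = resW p r ∘ ⇑a := by
  funext x
  unfold resW
  rw [Function.comp_apply, Perm.subtypeCongr.left_apply _ _ x.2]
  rfl

omit [Fintype X] [DecidableEq X] in
theorem resW_right (p : X → Prop) [DecidablePred p] (r : X → ℕ) (a : Perm {x // p x})
    (b : Perm {x // ¬ p x}) :
    resW (fun x => ¬ p x) (r ∘ ⇑(Perm.subtypeCongr a b)) = resW (fun x => ¬ p x) r ∘ ⇑b := by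
  funext x
  unfold resW
  rw [Function.comp_apply, Perm.subtypeCongr.right_apply _ _ x.2]
  rfl

/-- The polynomial factorises when no column meets both parts. -/
theorem hw_split (p : X → Prop) [DecidablePred p] (c1 r1 c2 r2 c3 r3 : X → ℕ)
    (h1 : ∀ x y, c1 x = c1 y → (p x ↔ p y)) (h2 : ∀ x y, c2 x = c2 y → (p x ↔ p y))
    (h3 : ∀ x y, c3 x = c3 y → (p x ↔ p y)) :
    hw c1 r1 c2 r2 c3 r3 =
      hw (resW p c1) (resW p r1) (resW p c2) (resW p r2) (resW p c3) (resW p r3) *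
      hw (resW (fun x => ¬ p x) c1) (resW (fun x => ¬ p x) r1) (resW (fun x => ¬ p x) c2)
        (resW (fun x => ¬ p x) r2) (resW (fun x => ¬ p x) c3) (resW (fun x => ¬ p x) r3) := by
  unfold hw
  rw [sum_stab_split p c1 h1, Finset.sum_mul_sum]
  refine Finset.sum_congr rfl fun a1 _ => Finset.sum_congr rfl fun b1 _ => ?_
  rw [sum_stab_split p c2 h2, Finset.sum_mul_sum]
  refine Finset.sum_congr rfl fun a2 _ => Finset.sum_congr rfl fun b2 _ => ?_
  rw [sum_stab_split p c3 h3, Finset.sum_mul_sum]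
  refine Finset.sum_congr rfl fun a3 _ => Finset.sum_congr rfl fun b3 _ => ?_
  rw [mon_split p, subtypeCongr_inv, subtypeCongr_inv, resW_left, resW_left, resW_left,
    resW_right, resW_right, resW_right, Perm.sign_subtypeCongr, Perm.sign_subtypeCongr,
    Perm.sign_subtypeCongr, smul_mul_smul_comm]
  congr 1
  push_cast
  ring

omit [Fintype X] [DecidableEq X] in
/-- Gluing two labellings. -/
theorem exists_glue (p : X → Prop) [DecidablePred p] {S1 S2 : Finset (ℕ × ℕ)}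
    (hd : ∀ d ∈ S1, d ∉ S2) {rl1 cl1 : {x // p x} → ℕ} {rl2 cl2 : {x // ¬ p x} → ℕ}
    (hl1 : IsLabel S1 rl1 cl1) (hl2 : IsLabel S2 rl2 cl2) :
    ∃ rl cl : X → ℕ, IsLabel (S1 ∪ S2) rl cl ∧ resW p rl = rl1 ∧ resW p cl = cl1 ∧
      resW (fun x => ¬ p x) rl = rl2 ∧ resW (fun x => ¬ p x) cl = cl2 ∧
      (∀ x, p x → (rl x, cl x) ∈ S1) ∧ ∀ x, ¬ p x → (rl x, cl x) ∈ S2 := by
  set rl : X → ℕ := fun x => if h : p x then rl1 ⟨x, h⟩ else rl2 ⟨x, h⟩ with hrl
  set cl : X → ℕ := fun x => if h : p x then cl1 ⟨x, h⟩ else cl2 ⟨x, h⟩ with hcl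
  have hrlA : ∀ (x : X) (h : p x), rl x = rl1 ⟨x, h⟩ := fun x h => by rw [hrl]; exact dif_pos h
  have hclA : ∀ (x : X) (h : p x), cl x = cl1 ⟨x, h⟩ := fun x h => by rw [hcl]; exact dif_pos h
  have hrl2 : ∀ (x : X) (h : ¬ p x), rl x = rl2 ⟨x, h⟩ := fun x h => by
    rw [hrl]; exact dif_neg h
  have hcl2 : ∀ (x : X) (h : ¬ p x), cl x = cl2 ⟨x, h⟩ := fun x h => by
    rw [hcl]; exact dif_neg h
  have hin : ∀ x, p x → (rl x, cl x) ∈ S1 := by
    intro x hx
    rw [hrlA x hx, hclA x hx]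
    exact hl1.mem _
  have hout : ∀ x, ¬ p x → (rl x, cl x) ∈ S2 := by
    intro x hx
    rw [hrl2 x hx, hcl2 x hx]
    exact hl2.mem _
  refine ⟨rl, cl, ⟨?_, ?_, ?_⟩, funext fun x => hrlA x.1 x.2, funext fun x => hclA x.1 x.2,
    funext fun x => hrl2 x.1 x.2, funext fun x => hcl2 x.1 x.2, hin, hout⟩
  · intro x
    by_cases hx : p x
    · exact Finset.mem_union_left _ (hin x hx)
    · exact Finset.mem_union_right _ (hout x hx)
  · intro x x' h1 h2
    by_cases hx : p x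
    · by_cases hx' : p x'
      · have := hl1.inj ⟨x, hx⟩ ⟨x', hx'⟩ (by rw [← hrlA, ← hrlA, h1])
          (by rw [← hclA, ← hclA, h2])
        exact congrArg Subtype.val this
      · have h3 := hd _ (hin x hx)
        have h4 := hout x' hx'
        rw [h1, h2] at h3
        exact absurd h4 h3
    · by_cases hx' : p x'
      · have h3 := hd _ (hin x' hx')
        have h4 := hout x hx
        rw [← h1, ← h2] at h3
        exact absurd h4 h3
      · have := hl2.inj ⟨x, hx⟩ ⟨x', hx'⟩ (by rw [← hrl2, ← hrl2, h1])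
          (by rw [← hcl2, ← hcl2, h2])
        exact congrArg Subtype.val this
  · intro c hc
    rcases Finset.mem_union.1 hc with hc1 | hc2
    · obtain ⟨x, h1, h2⟩ := hl1.surj c hc1
      exact ⟨x.1, by rw [hrlA x.1 x.2, ← h1], by rw [hclA x.1 x.2, ← h2]⟩
    · obtain ⟨x, h1, h2⟩ := hl2.surj c hc2
      exact ⟨x.1, by rw [hrl2 x.1 x.2, ← h1], by rw [hcl2 x.1 x.2, ← h2]⟩

/-- **Product property.** -/
theorem skewOcc_prod (p : X → Prop) [DecidablePred p] (c c' r : X → ℕ)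
    (hc : ∀ x y, c x = c y → (p x ↔ p y)) (hc' : ∀ x y, c' x = c' y → (p x ↔ p y))
    {S1 S2 : Finset (ℕ × ℕ)} (hd : ∀ d ∈ S1, ∀ d' ∈ S2, d.2 ≠ d'.2)
    (h1 : SkewOcc (resW p c) (resW p c') (resW p r) S1)
    (h2 : SkewOcc (resW (fun x => ¬ p x) c) (resW (fun x => ¬ p x) c')
      (resW (fun x => ¬ p x) r) S2) : SkewOcc c c' r (S1 ∪ S2) := by
  rw [skewOcc_iff] at h1 h2 ⊢
  obtain ⟨rl1, cl1, hl1, hne1⟩ := h1
  obtain ⟨rl2, cl2, hl2, hne2⟩ := h2
  obtain ⟨rl, cl, hl, e1, e2, e3, e4, hin, hout⟩ :=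
    exists_glue p (fun d hd1 hd2 => hd d hd1 d hd2 rfl) hl1 hl2
  refine ⟨rl, cl, hl, ?_⟩
  rw [hw_split p cl rl c r c' r ?_ hc hc', e1, e2, e3, e4]
  · exact mul_ne_zero hne1 hne2
  · intro x y hxy
    constructor
    · intro hx
      by_contra hy
      exact hd _ (hin x hx) _ (hout y hy) hxy
    · intro hy
      by_contra hx
      exact hd _ (hin y hy) _ (hout x hx) hxy.symm

theorem stab_congr {c d : X → ℕ} (h : ∀ x y, c x = c y ↔ d x = d y) : stab c = stab d := by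
  ext π
  rw [mem_stab, mem_stab]
  exact forall_congr' fun x => h _ _

theorem skewOcc_congr {c c' d d' r : X → ℕ} (h : ∀ x y, c x = c y ↔ d x = d y)
    (h' : ∀ x y, c' x = c' y ↔ d' x = d' y) {S : Finset (ℕ × ℕ)} (hS : SkewOcc d d' r S) :
    SkewOcc c c' r S := by
  unfold SkewOcc polyt at hS ⊢
  rw [stab_congr h, stab_congr h']
  exact hS

/-- Renaming the columns of the shape. -/
theorem skewOcc_relabel {c c' r : X → ℕ} {S : Finset (ℕ × ℕ)} (φ : ℕ → ℕ)
    (hφ : Function.Injective φ) (hS : SkewOcc c c' r S) :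
    SkewOcc c c' r (S.image fun d => (d.1, φ d.2)) := by
  obtain ⟨rl, cl, hl, y, hy, hne⟩ := hS
  refine ⟨rl, φ ∘ cl, ⟨?_, ?_, ?_⟩, y, hy, ?_⟩
  · intro x
    exact Finset.mem_image.2 ⟨_, hl.mem x, rfl⟩
  · intro x x' h1 h2
    exact hl.inj x x' h1 (hφ h2)
  · intro d hd
    obtain ⟨d', hd', rfl⟩ := Finset.mem_image.1 hd
    obtain ⟨x, h1, h2⟩ := hl.surj d' hd'
    exact ⟨x, h1, by rw [Function.comp_apply, h2]⟩
  · rw [stab_congr (c := φ ∘ cl) (d := cl) fun x y => hφ.eq_iff]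
    exact hne

/-- **Peeling one block** from the bottom of the columns, the rest having arbitrary heights. -/
theorem skewOcc_step (s : ℕ) (p : X → Prop) [DecidablePred p]
    (c c' r : X → ℕ) (hr : ∀ x, p x ↔ r x < s)
    (hI : ∀ g π ρ : Perm X, π ∈ stab c → ρ ∈ stab c' → (∀ x, p ((g * π) x) ↔ p x) →
      (∀ x, p ((g * ρ) x) ↔ p x) → ∀ x, p (g x) ↔ p x)
    (ν : YoungDiagram) (S1 S2 : Finset (ℕ × ℕ)) (bd : ℕ → ℕ) (hU : S1 ∪ S2 = ν.cells)
    (hS1 : ∀ d ∈ S1, bd d.2 ≤ d.1) (hS2 : ∀ d ∈ S2, d.1 < bd d.2)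
    (hA : SkewOcc (resW p c) (resW p c') (resW p r) S1)
    (h2 : SkewOcc (resW (fun x => ¬ p x) c) (resW (fun x => ¬ p x) c') (fun x => r x.1 - s) S2) :
    Occ c c' r ν := by
  classical
  obtain ⟨rl₂, cl₂, hlab₂, y₂, hy₂, hne₂⟩ := h2
  have hocc₂ := occ_of_kernel rl₂ cl₂ _ _ y₂ hy₂ hne₂
  obtain ⟨rlA, clA, hlabA, y, hy, hyne⟩ := hA
  obtain ⟨rl, cl, hl, e1, e2, e3, e4, hin, hout⟩ := exists_glue p (fun d hd1 hd2 => by
    have := hS1 d hd1
    have := hS2 d hd2
    omega) hlabA hlab₂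
  rw [hU] at hl
  refine ⟨kform (pker s p y (kform y₂)), rl, cl, hl, ?_⟩
  rw [Fn_glue s p y (kform y₂) c c' r hr hI]
  set FA := Fn (kform y) (polyt (resW p c) (resW p r)) (polyt (resW p c') (resW p r)) with hFA
  set FB := Fn (kform y₂) (polyt (resW (fun x => ¬ p x) c) (fun x => r x.1 - s))
        (polyt (resW (fun x => ¬ p x) c') (fun x => r x.1 - s)) with hFB
  have key := occ_factor p rl cl bd (fun x => by
    constructor
    · intro hx
      exact hS2 _ (hout x hx)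
    · intro h hx
      have := hS1 _ (hin x hx)
      simp only at this
      omega) (glueFn p FA FB) FA FB
    (glueFn_ne_zero p FA FB) (glueFn_subtypeCongr p FA FB) 1 1 1 1
  have hone : (Perm.subtypeCongr (1 : Perm {x // p x}) (1 : Perm {x // ¬ p x})) = 1 := by
    ext x
    by_cases hx : p x
    · rw [Perm.subtypeCongr.left_apply _ _ hx]
      rfl
    · rw [Perm.subtypeCongr.right_apply _ _ hx]
      rfl
  rw [hone] at key
  simp only [inv_one, one_mul, mul_one] at key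
  have e0 : occ rl cl (glueFn p FA FB) =
      occ (resW p rl) (resW p cl) FA *
        occ (resW (fun x => ¬ p x) rl) (resW (fun x => ¬ p x) cl) FB := key
  rw [e0, e1, e2, e3, e4]
  exact mul_ne_zero (occ_of_kernel rlA clA _ _ y hy hyne) hocc₂

end

end Vale.Agent.N197
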