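import Vale.Agent.N197.Block

/-!
# Counting cells in the first rows and columns
-/

namespace Vale.Agent.N197

open Finset Vale.Agent.P197 Vale.Agent.P197.H369

theorem card_rows (ν : YoungDiagram) (t : ℕ) (q : ℕ → Prop) [DecidablePred q] (f : ℕ → ℕ)
    (hf : ∀ a b, (b < ν.rowLen a ∧ q b) ↔ b < f a) :
    (ν.cells.filter fun d => d.1 < t ∧ q d.2).card = ∑ a ∈ range t, f a := by
  rw [Finset.card_eq_sum_card_fiberwise (f := fun d : ℕ × ℕ => d.1) (t := range t)]
  · refine Finset.sum_congr rfl fun a ha => ?_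
    rw [Finset.mem_range] at ha
    have h3 : (ν.cells.filter fun d => d.1 < t ∧ q d.2).filter (fun d => d.1 = a) =
        (range (f a)).image fun b => (a, b) := by
      ext ⟨a', b⟩
      simp only [Finset.mem_filter, YoungDiagram.mem_cells, YoungDiagram.mem_iff_lt_rowLen,
        Finset.mem_image, Finset.mem_range, Prod.mk.injEq]
      constructor
      · rintro ⟨⟨h4, -, h5⟩, rfl⟩
        exact ⟨b, (hf _ _).1 ⟨h4, h5⟩, rfl, rfl⟩
      · rintro ⟨b', h4, rfl, rfl⟩
        exact ⟨⟨((hf _ _).2 h4).1, ha, ((hf _ _).2 h4).2⟩, rfl⟩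
    rw [h3, Finset.card_image_of_injective _ (fun a b hab => by simpa using hab),
      Finset.card_range]
  · intro d hd
    exact Finset.mem_coe.2 (Finset.mem_range.2 (Finset.mem_filter.1 (Finset.mem_coe.1 hd)).2.1)

theorem card_swap (ν : YoungDiagram) (p : ℕ → ℕ → Prop) [∀ a b, Decidable (p a b)] :
    (ν.cells.filter fun d => p d.1 d.2).card =
      (ν.transpose.cells.filter fun d => p d.2 d.1).card := by
  refine Finset.card_bij (fun d _ => d.swap) ?_ ?_ ?_
  · intro d hd
    simpa using hd
  · intro d _ d' _ h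
    exact Prod.swap_injective h
  · intro d hd
    exact ⟨d.swap, by simpa using hd, rfl⟩

theorem card_box (ν : YoungDiagram) (t v : ℕ) :
    (ν.cells.filter fun d => d.1 < t ∧ d.2 < v).card = ∑ a ∈ range t, min v (ν.rowLen a) :=
  card_rows ν t (fun b => b < v) _ fun a b => by omega

theorem sum_min (ν : YoungDiagram) (t v : ℕ) :
    ∑ c ∈ range v, min t (ν.colLen c) = ∑ a ∈ range t, min v (ν.rowLen a) := by
  rw [← card_box, card_swap ν fun a b => a < t ∧ b < v]
  have h := card_box ν.transpose v t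
  simp only [YoungDiagram.rowLen_transpose] at h
  rw [← h]
  congr 1
  exact Finset.filter_congr fun d _ => and_comm

theorem card_top (ν : YoungDiagram) (t : ℕ) :
    (ν.cells.filter fun d => d.1 < t).card = firstRows ν t := by
  have h := card_rows ν t (fun _ => True) ν.rowLen fun a b => by simp
  simpa [firstRows] using h

theorem card_left (ν : YoungDiagram) (t : ℕ) :
    (ν.cells.filter fun d => d.2 < t).card = firstRows ν.transpose t := by
  rw [card_swap ν fun _ b => b < t, card_top]

/-- The basic size inequality. -/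
theorem size_le (ν : YoungDiagram) (t : ℕ) :
    ν.card + ∑ a ∈ range (t + 1), min (t + 1) (ν.rowLen a) ≤
      firstRows ν (t + 1) + firstRows ν.transpose (t + 1) +
        (ν.colLen t - (t + 1)) * (ν.rowLen t - (t + 1)) := by
  have h1 := Finset.card_union_add_card_inter (ν.cells.filter fun d => d.1 < t + 1)
    (ν.cells.filter fun d => d.2 < t + 1)
  rw [card_top, card_left, ← Finset.filter_and, card_box] at h1
  have h2 : ν.cells ⊆ ((ν.cells.filter fun d => d.1 < t + 1) ∪
      (ν.cells.filter fun d => d.2 < t + 1)) ∪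
      (Finset.Ico (t + 1) (ν.colLen t) ×ˢ Finset.Ico (t + 1) (ν.rowLen t)) := by
    rintro ⟨a, b⟩ hd
    simp only [Finset.mem_union, Finset.mem_filter, Finset.mem_product, Finset.mem_Ico]
    by_cases ha : a < t + 1
    · exact Or.inl (Or.inl ⟨hd, ha⟩)
    by_cases hb : b < t + 1
    · exact Or.inl (Or.inr ⟨hd, hb⟩)
    rw [YoungDiagram.mem_cells] at hd
    have h3 := YoungDiagram.mem_iff_lt_colLen.1 (ν.up_left_mem le_rfl (by omega : t ≤ b) hd)
    have h4 := YoungDiagram.mem_iff_lt_rowLen.1 (ν.up_left_mem (by omega : t ≤ a) le_rfl hd)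
    exact Or.inr ⟨⟨by omega, h3⟩, by omega, h4⟩
  have h3 := (Finset.card_le_card h2).trans (Finset.card_union_le _ _)
  rw [Finset.card_product, Nat.card_Ico, Nat.card_Ico] at h3
  have h4 : ν.cells.card = ν.card := rfl
  omega

theorem card_eq_of_row (ν : YoungDiagram) (t : ℕ) (h : ν.rowLen t = 0) :
    ν.card = firstRows ν (t + 1) := by
  rw [← card_top, Finset.filter_true_of_mem]
  rintro ⟨a, b⟩ hd
  by_contra ha
  rw [YoungDiagram.mem_cells] at hd
  have h4 := YoungDiagram.mem_iff_lt_rowLen.1 (ν.up_left_mem (by omega : t ≤ a) le_rfl hd)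
  omega

theorem mul_rowLen_le (ν : YoungDiagram) (t : ℕ) : (t + 1) * ν.rowLen t ≤ firstRows ν (t + 1) := by
  have h := Finset.card_nsmul_le_sum (range (t + 1)) ν.rowLen (ν.rowLen t) fun a ha =>
    ν.rowLen_anti _ _ (by rw [Finset.mem_range] at ha; omega)
  simpa [firstRows] using h

/-- A diagram with few cells in the first rows and in the first columns is small. -/
theorem size_cases (ν : YoungDiagram) (t X P : ℕ) (hT : firstRows ν (t + 1) ≤ X)
    (hL : firstRows ν.transpose (t + 1) ≤ X) (hP : X < (t + 1) * (P + 1)) :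
    ν.card ≤ X ∨ ν.card + 2 * t + 1 ≤ 2 * X ∨
      ν.card + (t + 1) * (t + 1) ≤ 2 * X + (P - (t + 1)) * (P - (t + 1)) := by
  have hp : ν.rowLen t ≤ P :=
    Nat.le_of_lt_succ (Nat.lt_of_mul_lt_mul_left ((mul_rowLen_le ν t).trans_lt (hT.trans_lt hP)))
  have hq : ν.colLen t ≤ P := by
    have := Nat.le_of_lt_succ
      (Nat.lt_of_mul_lt_mul_left ((mul_rowLen_le ν.transpose t).trans_lt (hL.trans_lt hP)))
    rwa [YoungDiagram.rowLen_transpose] at this
  by_cases h1 : ν.rowLen t = 0
  · exact Or.inl ((card_eq_of_row ν t h1).trans_le hT)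
  by_cases h2 : ν.colLen t = 0
  · left
    rw [← Saxl.card_transpose, card_eq_of_row ν.transpose t (by
      rw [YoungDiagram.rowLen_transpose]; exact h2)]
    exact hL
  have h3 := size_le ν t
  right
  rcases Nat.lt_or_ge (ν.rowLen t) (t + 1) with h4 | h4
  · left
    have h5 : t < ν.rowLen 0 := YoungDiagram.mem_iff_lt_rowLen.1
      (YoungDiagram.mem_iff_lt_colLen.2 (Nat.pos_of_ne_zero h2))
    have h6 := Finset.card_nsmul_le_sum (range t) (fun a => min (t + 1) (ν.rowLen (a + 1))) 1
      fun a ha => by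
        rw [Finset.mem_range] at ha
        have := ν.rowLen_anti (a + 1) t (by omega)
        omega
    rw [Finset.card_range, smul_eq_mul, mul_one] at h6
    rw [Finset.sum_range_succ', show ν.rowLen t - (t + 1) = 0 by omega, mul_zero] at h3
    omega
  · right
    have h6 := Finset.card_nsmul_le_sum (range (t + 1)) (fun a => min (t + 1) (ν.rowLen a))
      (t + 1) fun a ha => by
        rw [Finset.mem_range] at ha
        have := ν.rowLen_anti a t (by omega)
        omega
    rw [Finset.card_range, smul_eq_mul] at h6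
    have h7 : (ν.colLen t - (t + 1)) * (ν.rowLen t - (t + 1)) ≤ (P - (t + 1)) * (P - (t + 1)) :=
      Nat.mul_le_mul (by omega) (by omega)
    omega

/-- The number of cells in the first four rows and the first `v` columns. -/
def cap (ν : YoungDiagram) (v : ℕ) : ℕ := ∑ a ∈ range 4, min v (ν.rowLen a)

theorem cap_eq (ν : YoungDiagram) (v : ℕ) (hv : ν.rowLen 0 ≤ v) : cap ν v = firstRows ν 4 :=
  Finset.sum_congr rfl fun a _ => min_eq_right ((ν.rowLen_anti 0 a (Nat.zero_le _)).trans hv)

theorem feas_of_interval (ν : YoungDiagram) {s1 s2 u v : ℕ} (huv : u ≤ v)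
    (h1 : s1 + cap ν u ≤ cap ν v) (h2 : cap ν v + s2 ≤ firstRows ν 4 + cap ν u) :
    Feas ν s1 s2 := by
  have e1 := Finset.sum_range_add_sum_Ico (fun c => min 4 (ν.colLen c)) huv
  rw [sum_min, sum_min] at e1
  have hsub : Finset.Ico u v ⊆ range (max v (ν.rowLen 0)) := by
    intro c hc
    rw [Finset.mem_Ico] at hc
    rw [Finset.mem_range]
    omega
  have e2 := Finset.sum_sdiff (f := fun c => min 4 (ν.colLen c)) hsub
  rw [sum_min] at e2
  have e3 := cap_eq ν (max v (ν.rowLen 0)) (le_max_right _ _)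
  unfold cap at h1 h2 e3
  exact ⟨Finset.Ico u v, range (max v (ν.rowLen 0)) \ Finset.Ico u v, Finset.disjoint_sdiff,
    by omega, by omega⟩

theorem feas_of_le (ν : YoungDiagram) {s1 s2 : ℕ} (h : s1 + s2 + 3 ≤ firstRows ν 4) :
    Feas ν s1 s2 := by
  classical
  have hex : ∃ v, s1 ≤ cap ν v := ⟨ν.rowLen 0, by rw [cap_eq ν _ le_rfl]; omega⟩
  have h0 : cap ν 0 = 0 := by simp [cap]
  have h1 := Nat.find_spec hex
  refine feas_of_interval ν (u := 0) (v := Nat.find hex) (Nat.zero_le _) (by omega) ?_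
  rcases Nat.eq_zero_or_pos (Nat.find hex) with h2 | h2
  · rw [h2]
    omega
  · have h3 := Nat.find_min hex (m := Nat.find hex - 1) (by omega)
    have h4 : cap ν (Nat.find hex) ≤ cap ν (Nat.find hex - 1) + 4 := by
      simp only [cap, Finset.sum_range_succ, Finset.sum_range_zero]
      omega
    omega

end Vale.Agent.N197
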